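import Vale.Agent.P238.Poincare
import Mathlib.Analysis.SpecialFunctions.Log.Basic
import Mathlib.Analysis.SpecialFunctions.Sqrt
import Mathlib.Analysis.Complex.ExponentialBounds

namespace Vale.Agent.P238

open Finset

theorem eq_of_ED_eq_zero {α : Type} {x y : List α} (h : ED x y = 0) : x = y := by
  have := steps_ED x y
  rw [h] at this
  cases this
  rfl

theorem binED_pos {n : ℕ} {u v : Fin n → Bool} (h : u ≠ v) : 0 < binED n u v := by
  unfold binED
  have : ED (List.ofFn u) (List.ofFn v) ≠ 0 := fun e =>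
    h (List.ofFn_injective (eq_of_ED_eq_zero e))
  exact_mod_cast Nat.pos_of_ne_zero this

theorem binED_self {n : ℕ} (u : Fin n → Bool) : binED n u u = 0 := by
  simp [binED, ED_self]

/-- The two Lipschitz constants of an injective map. -/
theorem exists_constants {n : ℕ} (f : (Fin n → Bool) → Ell1) (hf : Function.Injective f) :
    ∃ A B : ℝ, 0 ≤ A ∧ 0 ≤ B ∧ distortion (binED n) f = A * B ∧
      (∀ u v, ‖f u - f v‖ ≤ A * binED n u v) ∧ (∀ u v, binED n u v ≤ B * ‖f u - f v‖) := by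
  refine ⟨_, _, ?_, ?_, rfl, ?_, ?_⟩
  · exact Real.iSup_nonneg fun p => div_nonneg (norm_nonneg _) (binED_pos p.2).le
  · exact Real.iSup_nonneg fun p => div_nonneg (binED_pos p.2).le (norm_nonneg _)
  · intro u v
    by_cases h : u = v
    · subst h; simp [binED_self]
    · rw [← div_le_iff₀ (binED_pos h)]
      exact le_ciSup (f := fun p : {p : (Fin n → Bool) × (Fin n → Bool) // p.1 ≠ p.2} =>
        ‖f p.1.1 - f p.1.2‖ / binED n p.1.1 p.1.2) (Finite.bddAbove_range _) ⟨(u, v), h⟩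
  · intro u v
    by_cases h : u = v
    · subst h; simp [binED_self]
    · have hp : 0 < ‖f u - f v‖ := norm_pos_iff.2 (sub_ne_zero.2 fun e => h (hf e))
      rw [← div_le_iff₀ hp]
      exact le_ciSup (f := fun p : {p : (Fin n → Bool) × (Fin n → Bool) // p.1 ≠ p.2} =>
        binED n p.1.1 p.1.2 / ‖f p.1.1 - f p.1.2‖) (Finite.bddAbove_range _) ⟨(u, v), h⟩

theorem exists_ofFn {n : ℕ} (l : List Bool) (h : l.length = n) :
    ∃ u : Fin n → Bool, List.ofFn u = l := by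
  subst h
  exact ⟨l.get, List.ofFn_get l⟩

theorem distortion_lower (K n : ℕ) (hn : (7 * 2 ^ (K + 3)) ^ K * (8 * (K + 1) + 8) ≤ n)
    (f : (Fin n → Bool) → Ell1) (hf : Function.Injective f) :
    (10 / 7 : ℝ) ^ K / (150 * (K + 2)) ≤ distortion (binED n) f := by
  classical
  obtain ⟨A, B, hA0, hB0, hd, hA, hB⟩ := exists_constants f hf
  rw [hd]
  set L := 2 ^ (K + 3) with hLdef
  have hL8 : L = 8 * 2 ^ K := by rw [hLdef, pow_add]; ring
  have hpos : 0 < 2 ^ K := by positivity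
  have hL : 6 ≤ L := by omega
  set pad : List Bool := List.replicate (n - (7 * L) ^ K * (8 * (K + 1) + 8)) false with hpad
  have hlen : ∀ x : G K, (enc (word L K x) ++ pad).length = n := by
    intro x
    rw [List.length_append, length_enc (K + 1) _ (length_mem_word L K x), length_word, hpad,
      List.length_replicate]
    omega
  choose τ hτ using fun x : G K => exists_ofFn _ (hlen x)
  have hED : ∀ x y : G K, binED n (τ x) (τ y) =
      (ED (enc (word L K x) ++ pad) (enc (word L K y) ++ pad) : ℝ) := by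
    intro x y
    simp only [binED, hτ]
  have hP := poincare_l1 K (fun x => f (τ x))
  set N : ℝ := (Fintype.card (G K) : ℝ) with hN
  have hNpos : 0 < N := by rw [hN]; exact_mod_cast Fintype.card_pos
  set ℓ : ℝ := 8 * (K + 1) + 8 with hℓ
  have hℓpos : 0 < ℓ := by positivity
  -- upper bound for the near pairs
  have hU := En_le_cost L hL K (fun v => ∑ x : G K, ∑ j : F, ‖f (τ (x + j • v)) - f (τ x)‖)
    (N * 7 * (A * (2 * ℓ))) (by
      intro v d hv
      have h1 : ∀ x (j : F), ‖f (τ (x + j • v)) - f (τ x)‖ ≤ A * (2 * ℓ) * d := by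
        intro x j
        rw [norm_sub_rev]
        refine (hA _ _).trans ?_
        rw [hED, mul_assoc]
        refine mul_le_mul_of_nonneg_left ?_ hA0
        obtain ⟨s, a1, a2, a3⟩ := hv x j
        have := enc_upper (K + 1) d pad (length_mem_word L K _) (length_mem_word L K _) a1 a2 a3
          (by rw [length_word] at a3 ⊢; exact a3)
        have h2 : (ED (enc (word L K x) ++ pad) (enc (word L K (x + j • v)) ++ pad) : ℝ) ≤
            ((2 * d * (8 * (K + 1) + 8) : ℕ) : ℝ) := by exact_mod_cast this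
        refine h2.trans (le_of_eq ?_)
        push_cast
        rw [hℓ]; ring
      calc ∑ x : G K, ∑ j : F, ‖f (τ (x + j • v)) - f (τ x)‖
          ≤ ∑ _x : G K, ∑ _j : F, A * (2 * ℓ) * d :=
            sum_le_sum fun x _ => sum_le_sum fun j _ => h1 x j
        _ = N * 7 * (A * (2 * ℓ)) * d := by
            simp only [sum_const, card_univ, ZMod.card, nsmul_eq_mul, hN]
            push_cast; ring)
  have hcost : cost L K ≤ 2 * (7 * L) ^ K := by
    have h1 := cost_le L K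
    have h2 : L * cost L K ≤ L * (2 * (7 * L) ^ K) := by
      have : (L + 6 * 2 ^ K) * (7 * L) ^ K ≤ (2 * L) * (7 * L) ^ K :=
        Nat.mul_le_mul_right _ (by omega)
      nlinarith [Nat.zero_le ((7 * L) ^ K)]
    exact Nat.le_of_mul_le_mul_left h2 (by omega)
  have hcost' : (cost L K : ℝ) ≤ 2 * (7 * L) ^ K := by exact_mod_cast hcost
  -- lower bound for the far pairs
  have hF : ∀ (x : G K) (j : F), j ≠ 0 →
      ((5 * L : ℝ)) ^ K ≤ 4 * (B * ‖f (τ (x + j • w K)) - f (τ x)‖) := by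
    intro x j hj
    rw [norm_sub_rev]
    have h1 := hB (τ x) (τ (x + j • w K))
    rw [hED] at h1
    obtain ⟨s, a1, a2, a3⟩ := enc_lower (word L K x) (word L K (x + j • w K)) pad
    have h2 := far L K x j hj s a1 a2
    rw [length_word] at a3
    have h3 : (5 * L) ^ K ≤
        4 * ED (enc (word L K x) ++ pad) (enc (word L K (x + j • w K)) ++ pad) := by omega
    have h4 : ((5 * L : ℝ)) ^ K ≤
        4 * (ED (enc (word L K x) ++ pad) (enc (word L K (x + j • w K)) ++ pad) : ℝ) := by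
      exact_mod_cast h3
    linarith
  have hF2 : ∀ x : G K, 6 * ((5 * L : ℝ)) ^ K ≤
      4 * B * ∑ j : F, ‖f (τ (x + j • w K)) - f (τ x)‖ := by
    intro x
    have h1 : ∑ j ∈ (univ : Finset F).erase 0, ((5 * L : ℝ)) ^ K ≤
        ∑ j ∈ (univ : Finset F).erase 0, 4 * B * ‖f (τ (x + j • w K)) - f (τ x)‖ :=
      sum_le_sum fun j hj => by
        have := hF x j (ne_of_mem_erase hj)
        linarith
    have h2 : ∑ j ∈ (univ : Finset F).erase 0, 4 * B * ‖f (τ (x + j • w K)) - f (τ x)‖ ≤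
        ∑ j : F, 4 * B * ‖f (τ (x + j • w K)) - f (τ x)‖ :=
      sum_le_sum_of_subset_of_nonneg (subset_univ _) fun j _ _ => by positivity
    have h3 := h1.trans h2
    rw [sum_const, card_erase_of_mem (mem_univ _), card_univ, ZMod.card, nsmul_eq_mul,
      ← mul_sum] at h3
    have e6 : ((7 - 1 : ℕ) : ℝ) = 6 := by norm_num
    rwa [e6] at h3
  have hF3 : N * (6 * ((5 * L : ℝ)) ^ K) ≤
      4 * B * ∑ x : G K, ∑ j : F, ‖f (τ (x + j • w K)) - f (τ x)‖ := by
    have := sum_le_sum fun x (_ : x ∈ (univ : Finset (G K))) => hF2 x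
    rw [sum_const, card_univ, nsmul_eq_mul, ← mul_sum] at this
    exact this
  set S := ∑ x : G K, ∑ j : F, ‖f (τ (x + j • w K)) - f (τ x)‖ with hS
  have h5 : 2 ^ K * S ≤ N * 7 * (A * (2 * ℓ)) * (2 * (7 * L) ^ K) :=
    hP.trans (hU.trans (mul_le_mul_of_nonneg_left hcost' (by positivity)))
  have hLpos : (0 : ℝ) < L := by exact_mod_cast (by omega : 0 < L)
  have h6 : 2 ^ K * (N * (6 * ((5 * L : ℝ)) ^ K)) ≤
      4 * B * (N * 7 * (A * (2 * ℓ)) * (2 * (7 * L) ^ K)) := by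
    calc 2 ^ K * (N * (6 * ((5 * L : ℝ)) ^ K)) ≤ 2 ^ K * (4 * B * S) :=
          mul_le_mul_of_nonneg_left hF3 (by positivity)
      _ = 4 * B * (2 ^ K * S) := by ring
      _ ≤ _ := mul_le_mul_of_nonneg_left h5 (by positivity)
  have h7 : (10 / 7 : ℝ) ^ K * (7 * L) ^ K = 2 ^ K * (5 * L) ^ K := by
    rw [← mul_pow, ← mul_pow]; congr 1; ring
  have h8 : (0 : ℝ) < N * (7 * L) ^ K := by positivity
  have h9 : 6 * (10 / 7 : ℝ) ^ K ≤ 112 * ℓ * (A * B) := by
    apply le_of_mul_le_mul_left _ h8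
    calc N * (7 * L) ^ K * (6 * (10 / 7 : ℝ) ^ K)
        = 6 * N * ((10 / 7 : ℝ) ^ K * (7 * L) ^ K) := by ring
      _ = 2 ^ K * (N * (6 * ((5 * L : ℝ)) ^ K)) := by rw [h7]; ring
      _ ≤ _ := h6
      _ = _ := by ring
  rw [div_le_iff₀ (by positivity)]
  have hAB : 0 ≤ A * B := mul_nonneg hA0 hB0
  have hK : (0 : ℝ) ≤ K := Nat.cast_nonneg K
  rw [hℓ] at h9
  nlinarith [mul_nonneg hAB hK]

theorem exists_injective (X : Type) [Finite X] : ∃ f : X → Ell1, Function.Injective f := by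
  obtain ⟨g, hg⟩ := Countable.exists_injective_nat X
  refine ⟨fun x => lp.single 1 0 (g x : ℝ), fun x y h => hg ?_⟩
  have := congrArg (fun u : Ell1 => u 0) h
  simpa using this

theorem c1_lower (K n : ℕ) (hn : (7 * 2 ^ (K + 3)) ^ K * (8 * (K + 1) + 8) ≤ n) :
    (10 / 7 : ℝ) ^ K / (150 * (K + 2)) ≤ c1 (binED n) := by
  obtain ⟨g, hg⟩ := exists_injective (Fin n → Bool)
  have : Nonempty {f : (Fin n → Bool) → Ell1 // Function.Injective f} := ⟨⟨g, hg⟩⟩
  exact le_ciInf fun f => distortion_lower K n hn f.1 f.2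

theorem size_bound (K : ℕ) :
    (7 * 2 ^ (K + 3)) ^ K * (8 * (K + 1) + 8) ≤ 2 ^ ((K + 4) ^ 2) := by
  have h1 : 7 * 2 ^ (K + 3) ≤ 2 ^ (K + 6) := by
    rw [show K + 6 = (K + 3) + 3 by ring, pow_add 2 (K + 3) 3]; omega
  have h2 : (7 * 2 ^ (K + 3)) ^ K ≤ 2 ^ ((K + 6) * K) := by
    rw [pow_mul]; exact Nat.pow_le_pow_left h1 K
  have h3 : 8 * (K + 1) + 8 ≤ 2 ^ (K + 4) := by
    have := @Nat.lt_two_pow_self K
    rw [pow_add]; omega
  calc _ ≤ 2 ^ ((K + 6) * K) * 2 ^ (K + 4) := Nat.mul_le_mul h2 h3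
    _ = 2 ^ ((K + 6) * K + (K + 4)) := by rw [← pow_add]
    _ ≤ _ := Nat.pow_le_pow_right (by norm_num) (by nlinarith)

theorem growth (K : ℕ) (hK : 20000 ≤ K) :
    Real.exp (1 / 10 * (K + 5)) ≤ (10 / 7 : ℝ) ^ K / (150 * (K + 2)) := by
  have hK' : (20000 : ℝ) ≤ K := by exact_mod_cast hK
  have h1 : Real.exp (3 / 10) ≤ 10 / 7 := by
    have := Real.add_one_le_exp (-(3 / 10) : ℝ)
    rw [Real.exp_neg] at this
    have hp := Real.exp_pos (3 / 10)
    rw [le_inv_comm₀ (by norm_num) hp] at this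
    linarith [show (-(3 / 10) + 1 : ℝ)⁻¹ = 10 / 7 by norm_num]
  have h2 : Real.exp (3 / 10 * K) ≤ (10 / 7 : ℝ) ^ K := by
    rw [mul_comm, Real.exp_nat_mul]
    exact pow_le_pow_left₀ (Real.exp_pos _).le h1 K
  have h3 : 150 * ((K : ℝ) + 2) ≤ Real.exp (2 / 10 * K - 1 / 2) := by
    have := Real.quadratic_le_exp_of_nonneg (x := 2 / 10 * K - 1 / 2) (by linarith)
    nlinarith
  rw [le_div_iff₀ (by positivity)]
  calc Real.exp (1 / 10 * (K + 5)) * (150 * (K + 2))
      ≤ Real.exp (1 / 10 * (K + 5)) * Real.exp (2 / 10 * K - 1 / 2) :=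
        mul_le_mul_of_nonneg_left h3 (Real.exp_pos _).le
    _ = Real.exp (3 / 10 * K) := by rw [← Real.exp_add]; congr 1; ring
    _ ≤ _ := h2

theorem lower_bound (M n : ℕ) (hM : 20004 ≤ M) (hn : 2 ^ (M ^ 2) ≤ n) :
    Real.exp (1 / 10 * Real.sqrt (Real.log n)) ≤ c1 (binED n) := by
  have hn0 : n ≠ 0 := by
    have : 0 < 2 ^ (M ^ 2) := Nat.two_pow_pos _
    omega
  have h1 : M ^ 2 ≤ Nat.log 2 n := Nat.le_log_of_pow_le (by norm_num) hn
  have h2 : 20004 ≤ Nat.sqrt (Nat.log 2 n) := hM.trans (Nat.le_sqrt'.2 h1)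
  obtain ⟨K, hK⟩ : ∃ K, Nat.sqrt (Nat.log 2 n) = K + 4 := ⟨Nat.sqrt (Nat.log 2 n) - 4, by omega⟩
  have h3 : (K + 4) ^ 2 ≤ Nat.log 2 n := hK ▸ Nat.sqrt_le' _
  have h4 : Nat.log 2 n < (K + 5) ^ 2 := by
    have := Nat.lt_succ_sqrt' (Nat.log 2 n)
    rwa [hK] at this
  have h5 : 2 ^ ((K + 4) ^ 2) ≤ n :=
    (Nat.pow_le_pow_right (by norm_num) h3).trans (Nat.pow_log_le_self 2 hn0)
  have h6 : n ≤ 2 ^ ((K + 5) ^ 2) :=
    (Nat.lt_pow_succ_log_self (by norm_num) n).le.trans (Nat.pow_le_pow_right (by norm_num) h4)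
  have h7 : Real.log n ≤ ((K : ℝ) + 5) ^ 2 := by
    have a1 : (n : ℝ) ≤ 2 ^ ((K + 5) ^ 2) := by exact_mod_cast h6
    have a2 : (0 : ℝ) < n := by exact_mod_cast Nat.pos_of_ne_zero hn0
    have a3 := Real.log_le_log a2 a1
    rw [Real.log_pow] at a3
    have a4 := Real.log_two_lt_d9
    push_cast at a3
    nlinarith [sq_nonneg ((K : ℝ) + 5)]
  have h8 : Real.sqrt (Real.log n) ≤ K + 5 := Real.sqrt_le_iff.2 ⟨by positivity, h7⟩
  calc Real.exp (1 / 10 * Real.sqrt (Real.log n)) ≤ Real.exp (1 / 10 * (K + 5)) :=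
        Real.exp_le_exp.2 (by linarith)
    _ ≤ _ := growth K (by omega)
    _ ≤ _ := c1_lower K n ((size_bound K).trans h5)

end Vale.Agent.P238
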