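import Vale.Agent.P238.CrtPoi
import Vale.Agent.P238.Main
import Mathlib.NumberTheory.Chebyshev

/-! The lower bound matching the bound of Ostrovsky and Rabani. -/

namespace Vale.Agent.P238.Crt

open Finset

theorem distortion_lower {J M : ℕ} [NeZero J] [NeZero M] (q : ℕ → ZMod J → ℕ)
    {L H r K y g Q n : ℕ} (hD : J = 2 * g + 2 * g) (hJ : 2 ≤ J) (hq : ∀ k i, 0 < q k i)
    (hc : ∀ k i, (q k i).Coprime (pr q k))
    (hg : ∀ k (o : ℤ), o ≠ 0 → |o| < L → (univ.filter fun i => (q k i : ℤ) ∣ o).card ≤ g)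
    (hy : ∀ h < K, ∀ i, q h i ≤ y) (hy0 : 0 < y) (hM : 2 * pr q K ∣ M)
    (h2 : Nat.Coprime 2 (pr q K)) (hH : 2 * (2 * y ^ (K + r)) ≤ H) (hr : 0 < r) (hL : H ≤ L)
    (hL' : K * r ^ K * H ≤ L) (hQ : J ^ K * M ≤ 7 ^ Q) (hn : (J * L) ^ K * (8 * Q + 8) ≤ n)
    (f : (Fin n → Bool) → Ell1) (hf : Function.Injective f) :
    (r / 2 : ℝ) ^ K / (64 * (8 * Q + 8)) ≤ distortion (binED n) f := by
  classical
  obtain ⟨A, B, hA0, hB0, hd, hA, hB⟩ := exists_constants f hf
  rw [hd]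
  obtain ⟨e⟩ : Nonempty (Sy J M K ↪ (Fin Q → F)) :=
    Function.Embedding.nonempty_of_card_le (by simpa [ZMod.card] using hQ)
  have einj : Function.Injective fun s : Sy J M K => List.ofFn (e s) :=
    List.ofFn_injective.comp e.injective
  set W : St J M K → List (List F) := fun x => (word q L K 2 x).map fun s => List.ofFn (e s)
    with hW
  have W1 : ∀ x, ∀ a ∈ W x, a.length = Q := fun x a ha => by
    obtain ⟨s, -, rfl⟩ := List.mem_map.1 ha
    simp
  have W2 : ∀ x, (W x).length = (J * L) ^ K := fun x => by simp [hW, length_word]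
  set pad : List Bool := List.replicate (n - (J * L) ^ K * (8 * Q + 8)) false with hpad
  have hlen : ∀ x, (enc (W x) ++ pad).length = n := by
    intro x
    rw [List.length_append, length_enc Q _ (W1 x), W2, hpad, List.length_replicate]
    omega
  choose τ hτ using fun x => exists_ofFn _ (hlen x)
  have hED : ∀ x y, binED n (τ x) (τ y) = (ED (enc (W x) ++ pad) (enc (W y) ++ pad) : ℝ) := by
    intro x y
    simp only [binED, hτ]
  have hP := poincare q H r hq hy hy0 two_pos hM hH (fun x => f (τ x))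
  set N : ℝ := (Fintype.card (St J M K) : ℝ) with hN
  have hNpos : 0 < N := by rw [hN]; exact_mod_cast Fintype.card_pos
  set ℓ : ℝ := 8 * Q + 8 with hℓ
  have hℓpos : 0 < ℓ := by positivity
  have hU := En_le_cost q H r L hL K 2 (fun v => ∑ x, ‖f (τ (x + v)) - f (τ x)‖)
    (N * (A * (2 * ℓ))) (by
      intro v d hv
      have h1 : ∀ x, ‖f (τ (x + v)) - f (τ x)‖ ≤ A * (2 * ℓ) * d := by
        intro x
        rw [norm_sub_rev]
        refine (hA _ _).trans ?_
        rw [hED, mul_assoc]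
        refine mul_le_mul_of_nonneg_left ?_ hA0
        obtain ⟨s, a1, a2, a3⟩ := (hv x).map fun s => List.ofFn (e s)
        have := enc_upper Q d pad (W1 x) (W1 (x + v)) a1 a2 a3
          (by rw [W2, ← W2 x]; exact a3)
        have h2 : (ED (enc (W x) ++ pad) (enc (W (x + v)) ++ pad) : ℝ) ≤
            ((2 * d * (8 * Q + 8) : ℕ) : ℝ) := by exact_mod_cast this
        refine h2.trans (le_of_eq ?_)
        push_cast
        rw [hℓ]; ring
      calc ∑ x, ‖f (τ (x + v)) - f (τ x)‖ ≤ ∑ _x : St J M K, A * (2 * ℓ) * d :=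
            sum_le_sum fun x _ => h1 x
        _ = N * (A * (2 * ℓ)) * d := by
            simp only [sum_const, card_univ, nsmul_eq_mul, hN]; ring)
  have H0 : 0 < H := lt_of_lt_of_le (by positivity) hH
  have hcost : cost J H r L K ≤ 2 * H * (J * L) ^ K := by
    have h1 := cost_le (J := J) H r L K hr
    have h2 : (J * L) ^ K * (H * (L + K * r ^ K * H)) ≤ (J * L) ^ K * (H * (L + L)) := by gcongr
    refine Nat.le_of_mul_le_mul_left (c := L) ?_ (by omega)
    nlinarith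
  have hcost' : (cost J H r L K : ℝ) ≤ 2 * H * (J * L) ^ K := by exact_mod_cast hcost
  have hF : ∀ x, ((2 * g * L : ℝ)) ^ K ≤ 4 * B * ‖f (τ (x + gen M q K 2)) - f (τ x)‖ := by
    intro x
    rw [norm_sub_rev]
    have h1 := hB (τ x) (τ (x + gen M q K 2))
    rw [hED] at h1
    obtain ⟨s, a1, a2, a3⟩ := enc_lower (W x) (W (x + gen M q K 2)) pad
    obtain ⟨s1, b1, e1⟩ := List.sublist_map_iff.1 a1
    obtain ⟨s2, b2, e2⟩ := List.sublist_map_iff.1 a2
    have e3 : s1 = s2 := (List.map_injective_iff.2 einj) (e1.symm.trans e2)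
    have h2 := far q L hD hJ hq hc hg K 2 x 1 two_pos hM h2 (by norm_num) s1 b1
      (by rw [one_smul, e3]; exact b2)
    rw [W2, e1, List.length_map] at a3
    have h3 : (2 * g * L) ^ K ≤ 4 * ED (enc (W x) ++ pad) (enc (W (x + gen M q K 2)) ++ pad) := by
      omega
    have h4 : ((2 * g * L : ℝ)) ^ K ≤
        4 * (ED (enc (W x) ++ pad) (enc (W (x + gen M q K 2)) ++ pad) : ℝ) := by
      exact_mod_cast h3
    linarith
  have hF3 := sum_le_sum fun x (_ : x ∈ univ) => hF x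
  rw [sum_const, card_univ, nsmul_eq_mul, ← mul_sum, ← hN] at hF3
  set S := ∑ x, ‖f (τ (x + gen M q K 2)) - f (τ x)‖ with hS
  have h5 : (r : ℝ) ^ K * H / 4 * S ≤ N * (A * (2 * ℓ)) * (2 * H * (J * L) ^ K) :=
    hP.trans (hU.trans (mul_le_mul_of_nonneg_left hcost' (by positivity)))
  have h6 : (r : ℝ) ^ K * H / 4 * (N * (2 * g * L : ℝ) ^ K) ≤
      4 * B * (N * (A * (2 * ℓ)) * (2 * H * (J * L) ^ K)) := by
    calc _ ≤ (r : ℝ) ^ K * H / 4 * (4 * B * S) := mul_le_mul_of_nonneg_left hF3 (by positivity)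
      _ = 4 * B * ((r : ℝ) ^ K * H / 4 * S) := by ring
      _ ≤ _ := mul_le_mul_of_nonneg_left h5 (by positivity)
  have h7 : (r / 2 : ℝ) ^ K * (J * L) ^ K = r ^ K * (2 * g * L) ^ K := by
    rw [← mul_pow, ← mul_pow, hD]; congr 1; push_cast; ring
  have h8 : (0 : ℝ) < N * H * (J * L) ^ K := by
    have : (0 : ℝ) < J := by exact_mod_cast (by omega : 0 < J)
    have : (0 : ℝ) < L := by exact_mod_cast (by omega : 0 < L)
    positivity
  rw [div_le_iff₀ (by positivity)]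
  apply le_of_mul_le_mul_left _ h8
  calc N * H * (J * L) ^ K * (r / 2 : ℝ) ^ K = N * H * ((r / 2 : ℝ) ^ K * (J * L) ^ K) := by ring
    _ = 4 * ((r : ℝ) ^ K * H / 4 * (N * (2 * g * L : ℝ) ^ K)) := by rw [h7]; ring
    _ ≤ 4 * (4 * B * (N * (A * (2 * ℓ)) * (2 * H * (J * L) ^ K))) := by linarith
    _ = _ := by ring

theorem pi_lower (e : ℕ) : 2 ^ e ≤ e + 1 + e * Nat.primeCounting (2 ^ e) := by
  have h1 := Chebyshev.two_pow_le_mul_lcmUpto (2 ^ e)
  have h2 : Nat.lcmUpto (2 ^ e) ≤ (2 ^ e) ^ Nat.primeCounting (2 ^ e) := by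
    rw [Nat.lcmUpto_eq_prod_pow_log, ← Nat.primesLE_card_eq_primeCounting]
    exact prod_le_pow_card _ _ _ fun p _ => Nat.pow_log_le_self p (by positivity)
  have h3 : 2 ^ e + 1 ≤ 2 ^ (e + 1) := by
    have := Nat.one_le_two_pow (n := e)
    rw [pow_succ]; omega
  have h4 := h1.trans (Nat.mul_le_mul h3 h2)
  rw [← pow_mul, ← pow_add] at h4
  exact (Nat.pow_le_pow_iff_right (by norm_num)).1 h4

/-- the moduli -/
noncomputable def qq (J : ℕ) (k : ℕ) (i : ZMod J) : ℕ := Nat.nth Nat.Prime (k * J + i.val + 1)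

theorem qq_prime (J k : ℕ) (i : ZMod J) : (qq J k i).Prime := Nat.prime_nth_prime _

theorem qq_inj {J : ℕ} [NeZero J] {k k' : ℕ} {i i' : ZMod J} (h : qq J k i = qq J k' i') :
    k = k' ∧ i = i' := by
  have h1 := Nat.nth_injective Nat.infinite_setOfPred_prime h
  have a := ZMod.val_lt i
  have b := ZMod.val_lt i'
  have h2 : k = k' := by
    rcases lt_trichotomy k k' with c | c | c
    · have := Nat.mul_le_mul_right J (Nat.succ_le_of_lt c)
      rw [Nat.succ_mul] at this; omega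
    · exact c
    · have := Nat.mul_le_mul_right J (Nat.succ_le_of_lt c)
      rw [Nat.succ_mul] at this; omega
  subst h2
  exact ⟨rfl, ZMod.val_injective J (by omega)⟩

theorem qq_card {J : ℕ} [NeZero J] {g : ℕ} (k : ℕ) (o : ℤ) (h0 : o ≠ 0) (h : |o| < (2 ^ g : ℕ)) :
    (univ.filter fun i => (qq J k i : ℤ) ∣ o).card ≤ g := by
  set T := univ.filter fun i => (qq J k i : ℤ) ∣ o
  have h1 : ∏ i ∈ T, qq J k i ∣ o.natAbs := by
    refine Finset.prod_dvd_of_isRelPrime (fun i _ j _ hij => ?_) fun i hi => ?_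
    · exact Nat.coprime_iff_isRelPrime.1
        ((Nat.coprime_primes (qq_prime J k i) (qq_prime J k j)).2 fun e => hij (qq_inj e).2)
    · exact Int.natCast_dvd.1 (mem_filter.1 hi).2
  have h2 := (pow_card_le_prod T _ 2 fun i _ => (qq_prime J k i).two_le).trans
    (Nat.le_of_dvd (Int.natAbs_pos.2 h0) h1)
  have h3 : o.natAbs < 2 ^ g := by rw [Int.abs_eq_natAbs] at h; exact_mod_cast h
  exact ((Nat.pow_lt_pow_iff_right (by norm_num)).1 (h2.trans_lt h3)).le

theorem c1_lower {b n : ℕ} (hb : 10 ≤ b) (hn : 2 ^ (29 * b * 4 ^ b) ≤ n) :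
    (2 : ℝ) ^ ((b - 2) * 2 ^ b) ≤ c1 (binED n) := by
  obtain ⟨f₀, hf₀⟩ := exists_injective (Fin n → Bool)
  have : Nonempty {f : (Fin n → Bool) → Ell1 // Function.Injective f} := ⟨⟨f₀, hf₀⟩⟩
  refine le_ciInf fun f => ?_
  obtain ⟨K, hK⟩ : ∃ K, K = 2 ^ b := ⟨_, rfl⟩
  have K1 : b < K := hK ▸ Nat.lt_two_pow_self
  have K2 : 1024 ≤ K := hK ▸ Nat.pow_le_pow_right (n := 2) (by norm_num) hb
  have K3 : 4 * b + 18 ≤ K := by
    obtain ⟨c, rfl⟩ : ∃ c, b = c + 6 := ⟨b - 6, by omega⟩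
    have := @Nat.lt_two_pow_self c
    rw [hK, pow_add]; omega
  have K4 : 4 ^ b = K ^ 2 := by rw [hK, ← pow_mul, mul_comm, pow_mul]; norm_num
  obtain ⟨g, hg⟩ : ∃ g, g = 14 * (b * K) := ⟨_, rfl⟩
  have bK : 10 * K ≤ b * K := Nat.mul_le_mul_right K hb
  obtain ⟨J, hJ⟩ : ∃ J, J = 2 * g + 2 * g := ⟨_, rfl⟩
  have : NeZero J := ⟨by omega⟩
  have pos : ∀ k i, 0 < qq J k i := fun k i => (qq_prime J k i).pos
  have : NeZero (2 * pr (qq J) K) :=
    ⟨(Nat.mul_pos two_pos (prod_pos fun h _ => prod_pos fun i _ => pos h i)).ne'⟩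
  have hpi : K * J < Nat.primeCounting (2 ^ (6 * b)) := by
    by_contra hc
    have h1 := pi_lower (6 * b)
    have h2 := Nat.mul_le_mul_left (6 * b) (not_lt.1 hc)
    have h3 : 2 ^ (6 * b) = K ^ 2 * K ^ 4 := by rw [hK, ← pow_add, ← pow_mul, mul_comm]
    have h4 : 6 * b * (K * J) = 336 * (b * b * K ^ 2) := by rw [hJ, hg]; ring
    have h5 : b * b * K ^ 2 ≤ K ^ 4 := by
      rw [show K ^ 4 = K * K * K ^ 2 by ring]
      exact Nat.mul_le_mul_right _ (Nat.mul_le_mul K1.le K1.le)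
    have h6 : K ≤ K ^ 4 := Nat.le_self_pow (by norm_num) K
    have h7 : 1024 ^ 2 * K ^ 4 ≤ K ^ 2 * K ^ 4 := Nat.mul_le_mul_right _ (Nat.pow_le_pow_left K2 2)
    omega
  have hy : ∀ h < K, ∀ i, qq J h i ≤ 2 ^ (6 * b) := fun h hh i => by
    refine Nat.lt_succ_iff.1 (Nat.nth_lt_of_lt_count (lt_of_le_of_lt ?_ hpi))
    have := Nat.mul_le_mul_right J (Nat.succ_le_of_lt hh)
    have := ZMod.val_lt i
    rw [Nat.succ_mul] at *
    omega
  have hJg : J ≤ 2 ^ g := by
    obtain ⟨c, hc⟩ : ∃ c, g = c + 4 := ⟨g - 4, by omega⟩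
    have := @Nat.lt_two_pow_self c
    rw [hJ, hc, pow_add]; omega
  obtain ⟨Q, hQ⟩ : ∃ Q, Q = 351 * (b * K * (b * K)) := ⟨_, rfl⟩
  have b2 : b * K * K ≤ b * K * (b * K) := Nat.mul_le_mul_left _ (by omega)
  have b3 : 1 ≤ b * K * K := Nat.mul_pos (by omega) (by omega)
  have hQ2 : 64 * (8 * Q + 8) ≤ 2 ^ K := by
    have h1 : b * K * (b * K) ≤ K * K * (K * K) := by gcongr
    have h2 : 2 ^ (4 * b + 18) = 2 ^ 18 * (K * K * (K * K)) := by rw [hK]; ring
    have h3 := Nat.pow_le_pow_right (n := 2) (by norm_num) K3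
    omega
  have := distortion_lower (M := 2 * pr (qq J) K) (qq J) (L := 2 ^ g) (H := 2 ^ (12 * (b * K) + 2))
    (r := K) (K := K) (y := 2 ^ (6 * b)) (g := g) (Q := Q) (n := n) hJ (by omega) pos
    (fun k i => Nat.Coprime.prod_right fun h hh => Nat.Coprime.prod_right fun j _ =>
      (Nat.coprime_primes (qq_prime J k i) (qq_prime J h j)).2 fun e =>
        (mem_range.1 hh).ne' (qq_inj e).1)
    qq_card hy (by positivity) dvd_rfl
    (Nat.Coprime.prod_right fun h _ => Nat.Coprime.prod_right fun j _ =>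
      (Nat.coprime_primes Nat.prime_two (qq_prime J h j)).2 fun e => by
        rw [← Nat.nth_prime_zero_eq_two] at e
        have := Nat.nth_injective Nat.infinite_setOfPred_prime e
        omega)
    (le_of_eq (by rw [← pow_mul]; ring)) (by omega)
    (Nat.pow_le_pow_right (by norm_num) (by omega))
    (by
      calc K * K ^ K * 2 ^ (12 * (b * K) + 2) = 2 ^ (b + b * K + (12 * (b * K) + 2)) := by
            rw [pow_add 2 (b + b * K), pow_add 2 b, pow_mul 2 b K, ← hK]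
        _ ≤ _ := Nat.pow_le_pow_right (by norm_num) (by omega))
    (by
      have h1 : pr (qq J) K ≤ ((2 ^ (6 * b)) ^ J) ^ K := by
        refine (prod_le_pow_card _ _ _ fun h hh => ?_).trans (by rw [card_range])
        exact (prod_le_pow_card _ _ _ fun i _ => hy h (mem_range.1 hh) i).trans
          (by rw [card_univ, ZMod.card])
      calc J ^ K * (2 * pr (qq J) K) ≤ (2 ^ g) ^ K * (2 ^ 1 * ((2 ^ (6 * b)) ^ J) ^ K) := by
            gcongr; norm_num
        _ = 2 ^ (14 * (b * K * K) + (1 + 336 * (b * K * (b * K)))) := by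
            rw [← pow_mul, ← pow_mul, ← pow_mul, ← pow_add, ← pow_add, hJ, hg]; congr 1; ring
        _ ≤ 2 ^ Q := Nat.pow_le_pow_right (by norm_num) (by omega)
        _ ≤ _ := Nat.pow_le_pow_left (by norm_num) Q)
    (by
      refine le_trans ?_ hn
      have h1 : 8 * Q + 8 ≤ 2 ^ (b * K * K) := by
        have := Nat.pow_le_pow_right (n := 2) (by norm_num)
          (show K ≤ b * K * K from Nat.le_mul_of_pos_left _ (by omega))
        omega
      calc (J * 2 ^ g) ^ K * (8 * Q + 8) ≤ (2 ^ g * 2 ^ g) ^ K * 2 ^ (b * K * K) := by gcongr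
        _ = _ := by rw [← pow_add, ← pow_mul, ← pow_add, K4, hg]; congr 1; ring)
    f.1 f.2
  refine le_trans ?_ this
  have hQ3 : (64 * (8 * Q + 8) : ℝ) ≤ 2 ^ K := by exact_mod_cast hQ2
  rw [le_div_iff₀ (by positivity), ← hK]
  refine (mul_le_mul_of_nonneg_left hQ3 (by positivity)).trans (le_of_eq ?_)
  obtain ⟨c, rfl⟩ : ∃ c, b = c + 2 := ⟨b - 2, by omega⟩
  have : (K : ℝ) / 2 = 2 ^ (c + 1) := by rw [hK]; push_cast; ring
  rw [this, ← pow_mul, ← pow_add, Nat.add_sub_cancel]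
  congr 1; ring

theorem lower_bound (N n : ℕ) (hN : 10 ≤ N) (hn : 2 ^ (29 * N * 4 ^ N) ≤ n) :
    Real.exp (1 / 100 * √(Real.log n * Real.log (Real.log n))) ≤ c1 (binED n) := by
  classical
  have ex : ∃ b, n < 2 ^ (29 * (b + 1) * 4 ^ (b + 1)) ∧ N ≤ b := by
    refine ⟨n + N, Nat.lt_two_pow_self.trans_le (Nat.pow_le_pow_right (by norm_num) ?_), by omega⟩
    exact le_trans (by omega) (Nat.le_mul_of_pos_right _ (by positivity))
  obtain ⟨b, ⟨h1, h2⟩, h3⟩ : ∃ b, (n < 2 ^ (29 * (b + 1) * 4 ^ (b + 1)) ∧ N ≤ b) ∧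
      2 ^ (29 * b * 4 ^ b) ≤ n := by
    refine ⟨Nat.find ex, Nat.find_spec ex, ?_⟩
    rcases (Nat.find_spec ex).2.eq_or_lt with e | e
    · rwa [← e]
    · have := Nat.find_min ex (m := Nat.find ex - 1) (by omega)
      rw [Nat.sub_add_cancel (by omega)] at this
      exact not_lt.1 fun a => this ⟨a, by omega⟩
  have hb : 10 ≤ b := hN.trans h2
  refine le_trans ?_ (c1_lower hb h3)
  have hb' : (10 : ℝ) ≤ b := by exact_mod_cast hb
  have n0 : 1 < n := lt_of_lt_of_le (Nat.one_lt_two_pow (by positivity)) h3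
  have n1 : (1 : ℝ) < n := by exact_mod_cast n0
  have l2 := Real.log_two_lt_d9
  have l2' := Real.log_two_gt_d9
  obtain ⟨K, hK⟩ : ∃ K : ℝ, K = 2 ^ b := ⟨_, rfl⟩
  have K0 : 0 < K := by rw [hK]; positivity
  have K1 : (b : ℝ) ≤ K := by rw [hK]; exact_mod_cast Nat.lt_two_pow_self.le
  have a1 : Real.log n ≤ 100 * b * K ^ 2 := by
    have a : (n : ℝ) ≤ 2 ^ (29 * (b + 1) * 4 ^ (b + 1)) := by exact_mod_cast h1.le
    have a' := Real.log_le_log (by linarith) a
    rw [Real.log_pow] at a'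
    have e : (4 : ℝ) ^ (b + 1) = 4 * K ^ 2 := by
      rw [hK, ← pow_mul, mul_comm b 2, pow_mul]; norm_num; ring
    push_cast at a'
    rw [e] at a'
    have : 29 * ((b : ℝ) + 1) * 4 * Real.log 2 ≤ 100 * b := by nlinarith
    nlinarith [sq_nonneg K]
  have a2 : Real.log (Real.log n) ≤ 3 * b := by
    have a : Real.log n ≤ 2 ^ (7 + 3 * b) := by
      rw [pow_add, mul_comm 3 b, pow_mul, ← hK]
      have := mul_le_mul_of_nonneg_right K1 (sq_nonneg K)
      nlinarith [pow_pos K0 3]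
    have a' := Real.log_le_log (Real.log_pos n1) a
    rw [Real.log_pow] at a'
    push_cast at a'
    nlinarith
  have a3 : √(Real.log n * Real.log (Real.log n)) ≤ 18 * b * K := by
    refine Real.sqrt_le_iff.2 ⟨by positivity, ?_⟩
    have := mul_le_mul_of_nonneg_left a2 (Real.log_pos n1).le
    have := mul_le_mul_of_nonneg_right a1 (by positivity : (0 : ℝ) ≤ 3 * b)
    nlinarith [sq_nonneg (b * K)]
  rw [← Real.le_log_iff_exp_le (by positivity), Real.log_pow, Nat.cast_mul,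
    Nat.cast_sub (by omega)]
  push_cast
  rw [← hK]
  have : 18 / 100 * (b : ℝ) ≤ (b - 2) * Real.log 2 := by nlinarith
  nlinarith

end Vale.Agent.P238.Crt
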