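import Vale.Agent.P238.Strings
import Mathlib.Analysis.Fourier.FiniteAbelian.PontryaginDuality
import Mathlib.MeasureTheory.Measure.Lebesgue.Basic
import Mathlib.MeasureTheory.Integral.Bochner.Set

namespace Vale.Agent.P238

open Finset

/-- Weighted sum of a function of directions over all the local moves of level `k`. -/
noncomputable def En : (k : ℕ) → (G k → ℝ) →ₗ[ℝ] ℝ
  | 0 => LinearMap.proj (w 0)
  | k + 1 => (2 : ℝ) ^ k • LinearMap.proj (diag k) +
      ∑ i : F, (En k) ∘ₗ (LinearMap.funLeft ℝ ℝ (embed (k := k) i))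

theorem En_zero (φ : G 0 → ℝ) : En 0 φ = φ (w 0) := rfl

theorem En_succ (k : ℕ) (φ : G (k + 1) → ℝ) :
    En (k + 1) φ = 2 ^ k * φ (diag k) + ∑ i : F, En k (fun v => φ (embed i v)) := by
  simp only [En, LinearMap.add_apply, LinearMap.smul_apply, LinearMap.proj_apply, smul_eq_mul,
    LinearMap.coe_sum, Finset.sum_apply, LinearMap.comp_apply]
  rfl

open Classical in
/-- Indicator that a character is nontrivial on a direction. -/
noncomputable def nontriv {A : Type} [AddCommGroup A] (ψ : AddChar A ℂ) (v : A) : ℝ :=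
  if ψ v = 1 then 0 else 1

theorem nontriv_nonneg {A : Type} [AddCommGroup A] (ψ : AddChar A ℂ) (v : A) :
    0 ≤ nontriv ψ v := by unfold nontriv; split_ifs <;> norm_num

theorem addChar_sum {A ι : Type} [AddCommGroup A] (ψ : AddChar A ℂ) (s : Finset ι) (f : ι → A) :
    ψ (∑ i ∈ s, f i) = ∏ i ∈ s, ψ (f i) := by
  classical
  induction s using Finset.induction_on with
  | empty => simp
  | insert a s ha ih => rw [sum_insert ha, prod_insert ha, AddChar.map_add_eq_mul, ih]

theorem addChar_smul (k : ℕ) (ψ : AddChar (G k) ℂ) (j : F) (v : G k) :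
    ψ (j • v) = ψ v ^ j.val := by
  rw [← AddChar.map_nsmul_eq_pow, ← Nat.cast_smul_eq_nsmul F, ZMod.natCast_zmod_val]

theorem char_bound : ∀ (k : ℕ) (ψ : AddChar (G k) ℂ),
    2 ^ k * nontriv ψ (w k) ≤ En k (nontriv ψ) := by
  intro k
  induction k with
  | zero => intro ψ; simp [En_zero]
  | succ k ih =>
    intro ψ
    classical
    rw [En_succ]
    have h1 : ∀ i : F, 2 ^ k * nontriv ψ (embed i (w k)) ≤ En k (fun v => nontriv ψ (embed i v)) :=
      fun i => ih (ψ.compAddMonoidHom (embed i))
    have h2 : 2 * nontriv ψ (w (k + 1)) ≤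
        nontriv ψ (diag k) + ∑ i : F, nontriv ψ (embed i (w k)) := by
      have hnn : 0 ≤ ∑ i : F, nontriv ψ (embed i (w k)) :=
        sum_nonneg fun i _ => nontriv_nonneg _ _
      by_cases hw : ψ (w (k + 1)) = 1
      · have := nontriv_nonneg ψ (diag k)
        have e : nontriv ψ (w (k + 1)) = 0 := by simp [nontriv, hw]
        rw [e]; linarith
      · have e : nontriv ψ (w (k + 1)) = 1 := by simp [nontriv, hw]
        rw [e]
        obtain ⟨i, hi⟩ : ∃ i : F, ψ (embed i (w k)) ≠ 1 := by
          by_contra hcon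
          push Not at hcon
          apply hw
          rw [← sum_smul_embed, addChar_sum]
          apply prod_eq_one
          intro i _
          have := addChar_smul k (ψ.compAddMonoidHom (embed i)) i (w k)
          simp only [AddChar.compAddMonoidHom_apply] at this
          rw [this, hcon i, one_pow]
        have ei : nontriv ψ (embed i (w k)) = 1 := by simp [nontriv, hi]
        by_cases hex : ∃ j : F, j ≠ i ∧ ψ (embed j (w k)) ≠ 1
        · obtain ⟨j, hji, hj⟩ := hex
          have ej : nontriv ψ (embed j (w k)) = 1 := by simp [nontriv, hj]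
          have : ∑ l ∈ ({j, i} : Finset F), nontriv ψ (embed l (w k)) ≤
              ∑ l : F, nontriv ψ (embed l (w k)) :=
            sum_le_sum_of_subset_of_nonneg (subset_univ _) fun l _ _ => nontriv_nonneg _ _
          rw [sum_pair hji, ei, ej] at this
          have := nontriv_nonneg ψ (diag k)
          linarith
        · push Not at hex
          have hd : ψ (diag k) ≠ 1 := by
            rw [← sum_embed, addChar_sum, prod_eq_single i (fun j _ hj => hex j hj) (by simp)]
            exact hi
          have ed : nontriv ψ (diag k) = 1 := by simp [nontriv, hd]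
          have : nontriv ψ (embed i (w k)) ≤ ∑ l : F, nontriv ψ (embed l (w k)) :=
            single_le_sum (f := fun l => nontriv ψ (embed l (w k)))
              (fun l _ => nontriv_nonneg _ _) (mem_univ i)
          linarith
    have h3 : ∑ i : F, 2 ^ k * nontriv ψ (embed i (w k)) ≤
        ∑ i : F, En k (fun v => nontriv ψ (embed i v)) := sum_le_sum fun i _ => h1 i
    rw [← mul_sum] at h3
    have h4 : (0 : ℝ) < 2 ^ k := by positivity
    rw [pow_succ]
    nlinarith

theorem parseval {A : Type} [AddCommGroup A] [Fintype A] (b : AddChar A ℂ → ℂ) :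
    ∑ x : A, Complex.normSq (∑ ψ, b ψ * ψ x) = Fintype.card A * ∑ ψ, Complex.normSq (b ψ) := by
  classical
  have orth : ∀ ψ φ : AddChar A ℂ, ∑ x : A, ψ x * (starRingEnd ℂ) (φ x) =
      if ψ = φ then (Fintype.card A : ℂ) else 0 := by
    intro ψ φ
    have := AddChar.sum_eq_ite (ψ - φ)
    simp only [AddChar.sub_apply', sub_eq_zero] at this
    rw [← this]
    refine sum_congr rfl fun x _ => ?_
    rw [div_eq_mul_inv, AddChar.inv_apply_eq_conj]
  apply Complex.ofReal_injective
  push_cast
  simp only [← Complex.mul_conj, map_sum, map_mul, sum_mul_sum]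
  rw [sum_comm]
  rw [mul_sum]
  refine sum_congr rfl fun ψ _ => ?_
  rw [sum_comm]
  have : ∀ φ : AddChar A ℂ, ∑ x : A, b ψ * ψ x * ((starRingEnd ℂ) (b φ) * (starRingEnd ℂ) (φ x)) =
      b ψ * (starRingEnd ℂ) (b φ) * (if ψ = φ then (Fintype.card A : ℂ) else 0) := by
    intro φ
    rw [← orth, mul_sum]
    refine sum_congr rfl fun x _ => ?_
    ring
  simp only [this, mul_ite, mul_zero, sum_ite_eq, mem_univ, if_true]
  ring

theorem sum_normSq_char (k : ℕ) (ψ : AddChar (G k) ℂ) (v : G k) :
    ∑ j : F, Complex.normSq (ψ (j • v) - 1) = 14 * nontriv ψ v := by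
  classical
  let χ : AddChar F ℂ := ψ.compAddMonoidHom ((smulAddHom F (G k)).flip v)
  have hχ : ∀ j, χ j = ψ (j • v) := fun j => rfl
  have h1 : ∀ j : F, Complex.normSq (ψ (j • v) - 1) = 2 - 2 * (ψ (j • v)).re := by
    intro j
    have hn : Complex.normSq (ψ (j • v)) = 1 := by
      rw [Complex.normSq_eq_norm_sq, AddChar.norm_apply]; norm_num
    rw [Complex.normSq_sub, hn]
    simp; ring
  simp only [h1, sum_sub_distrib, ← mul_sum, ← Complex.re_sum]
  have h2 := AddChar.sum_eq_ite χ
  simp only [hχ] at h2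
  rw [h2]
  by_cases hv : ψ v = 1
  · have : χ = 0 := by
      ext j
      rw [hχ, addChar_smul, hv]; simp
    simp [this, nontriv, hv]
    norm_num
  · have : χ ≠ 0 := by
      intro h
      apply hv
      have := hχ 1
      rw [h, one_smul] at this
      simpa using this.symm
    simp [this, nontriv, hv]
    norm_num

theorem poincare_sq (k : ℕ) (f : G k → ℝ) :
    2 ^ k * ∑ x : G k, ∑ j : F, (f (x + j • w k) - f x) ^ 2 ≤
      En k (fun v => ∑ x : G k, ∑ j : F, (f (x + j • v) - f x) ^ 2) := by
  classical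
  set a : AddChar (G k) ℂ → ℂ := fun ψ => (AddChar.complexBasis (G k)).repr (fun x => (f x : ℂ)) ψ
  have hf : ∀ x, (f x : ℂ) = ∑ ψ, a ψ * ψ x := by
    intro x
    have := congr_fun ((AddChar.complexBasis (G k)).sum_repr (fun x => (f x : ℂ))) x
    simp only [AddChar.complexBasis_apply, Finset.sum_apply, Pi.smul_apply, smul_eq_mul] at this
    exact this.symm
  have hQ : ∀ v : G k, ∑ x : G k, ∑ j : F, (f (x + j • v) - f x) ^ 2 =
      ∑ ψ, (14 * Fintype.card (G k) * Complex.normSq (a ψ)) * nontriv ψ v := by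
    intro v
    rw [sum_comm]
    have : ∀ j : F, ∑ x : G k, (f (x + j • v) - f x) ^ 2 =
        Fintype.card (G k) * ∑ ψ, Complex.normSq (a ψ * (ψ (j • v) - 1)) := by
      intro j
      rw [← parseval]
      refine sum_congr rfl fun x _ => ?_
      have e : ∑ ψ, a ψ * (ψ (j • v) - 1) * ψ x = ((f (x + j • v) - f x : ℝ) : ℂ) := by
        push_cast
        rw [hf, hf, ← sum_sub_distrib]
        refine sum_congr rfl fun ψ _ => ?_
        rw [AddChar.map_add_eq_mul]; ring
      rw [e, Complex.normSq_ofReal]; ring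
    simp only [this, ← mul_sum]
    rw [sum_comm, mul_sum]
    refine sum_congr rfl fun ψ _ => ?_
    simp only [Complex.normSq_mul, ← mul_sum, sum_normSq_char]
    ring
  have hfun : (fun v => ∑ x : G k, ∑ j : F, (f (x + j • v) - f x) ^ 2) =
      ∑ ψ, (14 * Fintype.card (G k) * Complex.normSq (a ψ)) • nontriv ψ := by
    funext v
    rw [hQ v]
    simp [Finset.sum_apply]
  rw [hfun, hQ, map_sum, mul_sum]
  refine sum_le_sum fun ψ _ => ?_
  rw [map_smul, smul_eq_mul]
  have h1 := char_bound k ψ
  have h2 : 0 ≤ 14 * (Fintype.card (G k) : ℝ) * Complex.normSq (a ψ) :=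
    mul_nonneg (by positivity) (Complex.normSq_nonneg _)
  nlinarith

open MeasureTheory in
theorem layer_cake {X ι : Type} [Fintype ι] (c : ι → ℝ) (P Q : ι → X)
    (h : ∀ f : X → ℝ, 0 ≤ ∑ i, c i * (f (P i) - f (Q i)) ^ 2) (f : X → ℝ) :
    0 ≤ ∑ i, c i * |f (P i) - f (Q i)| := by
  classical
  let g : ℝ → X → ℝ := fun u x => if u < f x then 1 else 0
  have e : ∀ x y u, (g u x - g u y) ^ 2 =
      (Set.Ico (min (f x) (f y)) (max (f x) (f y))).indicator (fun _ => (1 : ℝ)) u := by
    intro x y u
    simp only [g, Set.indicator, Set.mem_Ico, min_le_iff, lt_max_iff]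
    by_cases h1 : u < f x <;> by_cases h2 : u < f y
    · simp [h1, h2, not_le.2 h1, not_le.2 h2]
    · simp [h1, h2, not_lt.1 h2]
    · simp [h1, h2, not_lt.1 h1]
    · simp [h1, h2]
  have hint : ∀ x y, Integrable (fun u => (g u x - g u y) ^ 2) := by
    intro x y
    simp only [e]
    exact (integrable_indicator_iff measurableSet_Ico).2
      (integrableOn_const (by simp [Real.volume_Ico]))
  have hval : ∀ x y, ∫ u, (g u x - g u y) ^ 2 = |f x - f y| := by
    intro x y
    simp only [e]
    rw [integral_indicator measurableSet_Ico]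
    simp only [integral_const, MeasurableSet.univ, measureReal_restrict_apply, Set.univ_inter,
      Real.volume_real_Ico, smul_eq_mul, mul_one]
    rw [max_sub_min_eq_abs', max_eq_left (abs_nonneg _)]
  have : ∑ i, c i * |f (P i) - f (Q i)| = ∫ u, ∑ i, c i * (g u (P i) - g u (Q i)) ^ 2 := by
    rw [integral_finsetSum _ fun i _ => (hint _ _).const_mul _]
    refine sum_congr rfl fun i _ => ?_
    rw [integral_const_mul, hval]
  rw [this]
  exact integral_nonneg fun u => h (g u)

theorem l1_of_abs {X ι : Type} [Fintype ι] (c : ι → ℝ) (P Q : ι → X)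
    (h : ∀ f : X → ℝ, 0 ≤ ∑ i, c i * |f (P i) - f (Q i)|) (f : X → Ell1) :
    0 ≤ ∑ i, c i * ‖f (P i) - f (Q i)‖ := by
  have h1 : ∀ i, HasSum (fun n => c i * |f (P i) n - f (Q i) n|) (c i * ‖f (P i) - f (Q i)‖) := by
    intro i
    have := lp.hasSum_norm (p := 1) (by simp) (f (P i) - f (Q i))
    simp only [ENNReal.toReal_one, Real.rpow_one, lp.coeFn_sub, Pi.sub_apply,
      Real.norm_eq_abs] at this
    exact this.mul_left _
  exact (hasSum_sum fun i _ => h1 i).nonneg fun n => h (fun x => f x n)

theorem poincare_l1 (k : ℕ) (f : G k → Ell1) :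
    2 ^ k * ∑ x : G k, ∑ j : F, ‖f (x + j • w k) - f x‖ ≤
      En k (fun v => ∑ x : G k, ∑ j : F, ‖f (x + j • v) - f x‖) := by
  classical
  let lam : G k → ℝ := fun v => En k (fun u => if v = u then 1 else 0) - if v = w k then 2 ^ k else 0
  have key : ∀ d : G k → G k → ℝ,
      ∑ i : G k × G k × F, lam i.1 * d (i.2.1 + i.2.2 • i.1) i.2.1 =
        En k (fun v => ∑ x : G k, ∑ j : F, d (x + j • v) x) -
          2 ^ k * ∑ x : G k, ∑ j : F, d (x + j • w k) x := by
    intro d
    rw [LinearMap.pi_apply_eq_sum_univ (En k)]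
    simp only [Fintype.sum_prod_type, ← mul_sum]
    simp only [lam, sub_mul, sum_sub_distrib, ite_mul, zero_mul,
      sum_ite_eq', mem_univ, if_true, smul_eq_mul]
    congr 1
    exact sum_congr rfl fun v _ => mul_comm _ _
  have := l1_of_abs (fun i : G k × G k × F => lam i.1) (fun i => i.2.1 + i.2.2 • i.1)
    (fun i => i.2.1) (layer_cake _ _ _ fun g => by
      rw [key (fun x y => (g x - g y) ^ 2)]
      exact sub_nonneg.2 (poincare_sq k g)) f
  rw [key (fun x y => ‖f x - f y‖)] at this
  exact sub_nonneg.1 this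

/-- Total cost of the local moves. -/
def cost (L : ℕ) : ℕ → ℕ
  | 0 => 1
  | k + 1 => 2 ^ k * (42 * (7 * L) ^ k) + 7 * (L * cost L k)

theorem En_le_cost (L : ℕ) (hL : 6 ≤ L) : ∀ (k : ℕ) (φ : G k → ℝ) (c : ℝ),
    (∀ v d, (∀ x (j : F), Near d (word L k x) (word L k (x + j • v))) → φ v ≤ c * d) →
      En k φ ≤ c * cost L k := by
  intro k
  induction k with
  | zero =>
    intro φ c h
    rw [En_zero]
    exact h _ 1 fun x j => near_leaf L _ _
  | succ k ih =>
    intro φ c h
    rw [En_succ]
    have h1 := h (diag k) _ (near_diag L k hL)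
    have h2 : ∀ i : F, En k (fun v => φ (embed i v)) ≤ c * L * cost L k := by
      intro i
      apply ih
      intro v d hv
      have := h (embed i v) _ (near_embed L k d i v hv)
      push_cast at this
      linarith
    have h3 : ∑ i : F, En k (fun v => φ (embed i v)) ≤ ∑ _i : F, c * L * cost L k :=
      sum_le_sum fun i _ => h2 i
    simp only [sum_const, card_univ, ZMod.card, nsmul_eq_mul] at h3
    have h4 : (0 : ℝ) < 2 ^ k := by positivity
    have h5 := mul_le_mul_of_nonneg_left h1 h4.le
    simp only [cost]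
    push_cast at h3 h5 ⊢
    nlinarith

theorem cost_le (L k : ℕ) : L * cost L k + 6 * (7 * L) ^ k = (L + 6 * 2 ^ k) * (7 * L) ^ k := by
  induction k with
  | zero => simp [cost]
  | succ k ih =>
    simp only [cost, pow_succ]
    nlinarith

end Vale.Agent.P238
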