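import Vale.Agent.P238.CrtStr
import Vale.Agent.P238.Poincare

/-! The Poincare inequality for nested shifts with coprime moduli. -/

namespace Vale.Agent.P238.Crt

open Finset

theorem poincare_gen {A : Type} [AddCommGroup A] [Fintype A] (Λ : (A → ℝ) →ₗ[ℝ] ℝ)
    (h : ∀ ψ : AddChar A ℂ, 0 ≤ Λ fun v => Complex.normSq (ψ v - 1)) (f : A → Ell1) :
    0 ≤ Λ fun v => ∑ x, ‖f (x + v) - f x‖ := by
  classical
  have sq : ∀ g : A → ℝ, 0 ≤ Λ fun v => ∑ x, (g (x + v) - g x) ^ 2 := by
    intro g
    set a : AddChar A ℂ → ℂ := fun ψ => (AddChar.complexBasis A).repr (fun x => (g x : ℂ)) ψ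
    have hf : ∀ x, (g x : ℂ) = ∑ ψ, a ψ * ψ x := by
      intro x
      have := congr_fun ((AddChar.complexBasis A).sum_repr (fun x => (g x : ℂ))) x
      simp only [AddChar.complexBasis_apply, Finset.sum_apply, Pi.smul_apply, smul_eq_mul] at this
      exact this.symm
    have hfun : (fun v => ∑ x, (g (x + v) - g x) ^ 2) =
        ∑ ψ, (Fintype.card A * Complex.normSq (a ψ)) • fun v => Complex.normSq (ψ v - 1) := by
      funext v
      have : ∑ x, (g (x + v) - g x) ^ 2 =
          Fintype.card A * ∑ ψ, Complex.normSq (a ψ * (ψ v - 1)) := by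
        rw [← parseval]
        refine sum_congr rfl fun x _ => ?_
        have e : ∑ ψ, a ψ * (ψ v - 1) * ψ x = ((g (x + v) - g x : ℝ) : ℂ) := by
          push_cast
          rw [hf, hf, ← sum_sub_distrib]
          refine sum_congr rfl fun ψ _ => ?_
          rw [AddChar.map_add_eq_mul]; ring
        rw [e, Complex.normSq_ofReal]; ring
      rw [this, mul_sum, Finset.sum_apply]
      refine sum_congr rfl fun ψ _ => ?_
      simp only [Complex.normSq_mul, Pi.smul_apply, smul_eq_mul]
      ring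
    rw [hfun, map_sum]
    refine sum_nonneg fun ψ _ => ?_
    rw [map_smul, smul_eq_mul]
    exact mul_nonneg (mul_nonneg (by positivity) (Complex.normSq_nonneg _)) (h ψ)
  let c : A → ℝ := fun v => Λ (fun u => if v = u then 1 else 0)
  have key : ∀ d : A → A → ℝ,
      ∑ i : A × A, c i.1 * d (i.2 + i.1) i.2 = Λ fun v => ∑ x, d (x + v) x := by
    intro d
    rw [LinearMap.pi_apply_eq_sum_univ Λ]
    simp only [Fintype.sum_prod_type, ← mul_sum, smul_eq_mul]
    exact sum_congr rfl fun v _ => mul_comm _ _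
  have := l1_of_abs (fun i : A × A => c i.1)
    (fun i => i.2 + i.1) (fun i => i.2) (layer_cake _ _ _ fun g => by
      rw [key (fun x y => (g x - g y) ^ 2)]
      exact sq g) f
  rwa [key (fun x y => ‖f x - f y‖)] at this

theorem root_sum {ζ : ℂ} (h0 : ‖ζ‖ = 1) (h1 : ζ ≠ 1) {D H : ℕ} (hD : 0 < D) (h2 : ζ ^ D = 1)
    (hH : 2 * D ≤ H) : (H : ℝ) ≤ ∑ j ∈ range H, Complex.normSq (ζ ^ j - 1) := by
  have e1 : ∀ j, Complex.normSq (ζ ^ j - 1) = 2 - 2 * (ζ ^ j).re := fun j => by
    rw [Complex.normSq_sub, Complex.normSq_eq_norm_sq, norm_pow, h0]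
    simp; ring
  have e2 : ∑ j ∈ range H, ζ ^ j = ∑ j ∈ range (H % D), ζ ^ j := by
    rw [geom_sum_eq h1, geom_sum_eq h1, ← pow_eq_pow_mod H h2]
  have e3 : (∑ j ∈ range H, ζ ^ j).re ≤ (H % D : ℕ) := by
    rw [e2]
    refine (Complex.re_le_norm _).trans ((norm_sum_le _ _).trans ?_)
    simp [h0]
  have e4 : ((H % D : ℕ) : ℝ) ≤ D := by exact_mod_cast (Nat.mod_lt H hD).le
  have e5 : 2 * (D : ℝ) ≤ H := by exact_mod_cast hH
  simp only [e1, sum_sub_distrib, ← mul_sum, ← Complex.re_sum, sum_const, card_range,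
    nsmul_eq_mul]
  linarith

variable {J M : ℕ} [NeZero J] (q : ℕ → ZMod J → ℕ) (H r : ℕ)

variable (M) in
/-- weighted sum of a function of directions over the local moves -/
noncomputable def En : (k : ℕ) → ℕ → (St J M k → ℝ) →ₗ[ℝ] ℝ
  | 0, m => ∑ j ∈ range H, LinearMap.proj (j • gen M q 0 m)
  | k + 1, m => (r : ℝ) ^ (k + 1) • ∑ j ∈ range H, LinearMap.proj (j • diag M q k m) +
      ∑ i, (En k (m * q k i)) ∘ₗ (LinearMap.funLeft ℝ ℝ (embed (k := k) i))

theorem En_zero (m : ℕ) (φ : St J M 0 → ℝ) :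
    En M q H r 0 m φ = ∑ j ∈ range H, φ (j • gen M q 0 m) := by
  simp only [En, LinearMap.coe_sum, Finset.sum_apply, LinearMap.proj_apply]

theorem En_succ (k m : ℕ) (φ : St J M (k + 1) → ℝ) :
    En M q H r (k + 1) m φ = (r : ℝ) ^ (k + 1) * ∑ j ∈ range H, φ (j • diag M q k m) +
      ∑ i, En M q H r k (m * q k i) (fun v => φ (embed i v)) := by
  simp only [En, LinearMap.add_apply, LinearMap.smul_apply, LinearMap.proj_apply, smul_eq_mul,
    LinearMap.coe_sum, Finset.sum_apply, LinearMap.comp_apply]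
  rfl

theorem char_bound [NeZero M] {y : ℕ} (hq : ∀ k i, 0 < q k i) :
    ∀ (k m : ℕ) (ψ : AddChar (St J M k) ℂ), (∀ h < k, ∀ i, q h i ≤ y) → 0 < y → 0 < m →
      m * pr q k ∣ M → 2 * (m * y ^ (k + r)) ≤ H →
      (r : ℝ) ^ k * H * nontriv ψ (gen M q k m) ≤
        En M q H r k m fun v => Complex.normSq (ψ v - 1) := by
  intro k
  induction k with
  | zero =>
    intro m ψ _ hy hm hM hH
    rw [En_zero]
    by_cases h : ψ (gen M q 0 m) = 1
    · simp only [nontriv, h, if_true, mul_zero]
      exact sum_nonneg fun j _ => Complex.normSq_nonneg _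
    · simp only [nontriv, h, if_false, mul_one, pow_zero, one_mul, AddChar.map_nsmul_eq_pow]
      refine root_sum (AddChar.norm_apply _ _) h hm ?_ ?_
      · rw [← AddChar.map_nsmul_eq_pow, ord_gen q hq 0 m hm hM, AddChar.map_zero_eq_one]
      · have := Nat.le_mul_of_pos_right m (Nat.pow_pos (n := 0 + r) hy)
        omega
  | succ k ih =>
    intro m ψ hy hy0 hm hM hH
    classical
    rw [En_succ]
    have h1 : ∀ i, (r : ℝ) ^ k * H * nontriv ψ (embed i (gen M q k (m * q k i))) ≤
        En M q H r k (m * q k i) (fun v => Complex.normSq (ψ (embed i v) - 1)) := fun i =>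
      ih _ (ψ.compAddMonoidHom (embed i)) (fun h hh => hy h (by omega)) hy0
        (Nat.mul_pos hm (hq k i)) (dvd_child q hM i) (by
          have := Nat.mul_le_mul_right (y ^ (k + r)) (Nat.mul_le_mul_left m (hy k (by omega) i))
          rw [show k + 1 + r = (k + r) + 1 by ring, pow_succ] at hH
          nlinarith)
    have h2 := sum_le_sum fun i (_ : i ∈ univ) => h1 i
    have h3 : 0 ≤ (r : ℝ) ^ (k + 1) *
        ∑ j ∈ range H, Complex.normSq (ψ (j • diag M q k m) - 1) :=
      mul_nonneg (by positivity) (sum_nonneg fun j _ => Complex.normSq_nonneg _)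
    have h4 : ∑ i, nontriv ψ (embed i (gen M q k (m * q k i))) =
        (univ.filter fun i => ψ (embed i (gen M q k (m * q k i))) ≠ 1).card := by
      simp only [nontriv, card_filter, ite_not]
      push_cast
      rfl
    rw [← mul_sum, h4] at h2
    set T := univ.filter fun i => ψ (embed i (gen M q k (m * q k i))) ≠ 1 with hT
    have h5 : (0 : ℝ) ≤ (r : ℝ) ^ k * H := by positivity
    by_cases h : ψ (gen M q (k + 1) m) = 1
    · simp only [nontriv, h, if_true, mul_zero]
      have : (0 : ℝ) ≤ (r : ℝ) ^ k * H * T.card := by positivity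
      linarith
    simp only [nontriv, h, if_false, mul_one]
    rcases le_or_gt r T.card with hr | hr
    · have : (r : ℝ) ^ k * H * r ≤ (r : ℝ) ^ k * H * T.card :=
        mul_le_mul_of_nonneg_left (by exact_mod_cast hr) h5
      rw [pow_succ] at h3 ⊢
      linarith
    · have a1 : ψ (diag M q k m) ≠ 1 := fun e => h (by
        rw [gen_succ, AddChar.map_nsmul_eq_pow, e, one_pow])
      have a2 : ψ (diag M q k m) ^ (m * ∏ i ∈ T, q k i) = 1 := by
        rw [← sum_embed, addChar_sum, ← prod_pow]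
        refine prod_eq_one fun i _ => ?_
        by_cases hi : i ∈ T
        · obtain ⟨c, hc⟩ := dvd_prod_of_mem (q k) hi
          rw [hc, ← mul_assoc, pow_mul, ← AddChar.map_nsmul_eq_pow, ← map_nsmul,
            ord_gen q hq k _ (Nat.mul_pos hm (hq k i)) (dvd_child q hM i)]
          simp
        · have : ψ (embed i (gen M q k (m * q k i))) = 1 := by simpa [hT] using hi
          rw [this, one_pow]
      have a3 : ∏ i ∈ T, q k i ≤ y ^ (k + 1 + r) :=
        (prod_le_pow_card T _ y fun i _ => hy k (by omega) i).trans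
          (Nat.pow_le_pow_right hy0 (by omega))
      have a4 := root_sum (AddChar.norm_apply _ _) a1
        (Nat.mul_pos hm (prod_pos fun i _ => hq k i)) a2
        ((Nat.mul_le_mul_left 2 (Nat.mul_le_mul_left m a3)).trans hH)
      simp only [← AddChar.map_nsmul_eq_pow] at a4
      have a5 := mul_le_mul_of_nonneg_left a4 (by positivity : (0 : ℝ) ≤ (r : ℝ) ^ (k + 1))
      have : (0 : ℝ) ≤ (r : ℝ) ^ k * H * T.card := by positivity
      linarith

theorem poincare [NeZero M] {y k m : ℕ} (hq : ∀ k i, 0 < q k i) (hy : ∀ h < k, ∀ i, q h i ≤ y)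
    (hy0 : 0 < y) (hm : 0 < m) (hM : m * pr q k ∣ M) (hH : 2 * (m * y ^ (k + r)) ≤ H)
    (f : St J M k → Ell1) :
    (r : ℝ) ^ k * H / 4 * ∑ x, ‖f (x + gen M q k m) - f x‖ ≤
      En M q H r k m fun v => ∑ x, ‖f (x + v) - f x‖ := by
  have := poincare_gen (En M q H r k m - ((r : ℝ) ^ k * H / 4) • LinearMap.proj (gen M q k m))
    (fun ψ => by
      have h1 := char_bound q H r hq k m ψ hy hy0 hm hM hH
      have h2 : Complex.normSq (ψ (gen M q k m) - 1) ≤ 4 * nontriv ψ (gen M q k m) := by
        by_cases h : ψ (gen M q k m) = 1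
        · simp [nontriv, h]
        · have := norm_sub_le (ψ (gen M q k m)) 1
          rw [AddChar.norm_apply, norm_one] at this
          rw [Complex.normSq_eq_norm_sq]
          simp only [nontriv, h, if_false]
          nlinarith [norm_nonneg (ψ (gen M q k m) - 1)]
      have h3 := mul_le_mul_of_nonneg_left h2 (by positivity : (0 : ℝ) ≤ (r : ℝ) ^ k * H / 4)
      simp only [LinearMap.sub_apply, LinearMap.smul_apply, LinearMap.proj_apply, smul_eq_mul]
      linarith) f
  simpa only [LinearMap.sub_apply, LinearMap.smul_apply, LinearMap.proj_apply, smul_eq_mul,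
    sub_nonneg] using this

variable (J) in
/-- total cost of the local moves -/
def cost (L : ℕ) : ℕ → ℕ
  | 0 => H
  | k + 1 => r ^ (k + 1) * (H * (J * H * (J * L) ^ k)) + J * (L * cost L k)

theorem En_le_cost (L : ℕ) (hL : H ≤ L) : ∀ (k m : ℕ) (φ : St J M k → ℝ) (c : ℝ),
    (∀ v d, (∀ x, Near d (word q L k m x) (word q L k m (x + v))) → φ v ≤ c * d) →
      En M q H r k m φ ≤ c * cost J H r L k := by
  intro k
  induction k with
  | zero =>
    intro m φ c h
    rw [En_zero]
    refine (sum_le_sum fun j _ => h _ 1 fun x => near_leaf q L m _ _).trans ?_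
    simp [cost, mul_comm]
  | succ k ih =>
    intro m φ c h
    rw [En_succ]
    have h1 := (sum_le_sum fun j (hj : j ∈ range H) =>
      h _ _ (near_diag q L k m H j (mem_range.1 hj).le hL)).trans
      (by rw [sum_const, card_range, nsmul_eq_mul])
    have h2 : ∀ i, En M q H r k (m * q k i) (fun v => φ (embed i v)) ≤
        c * L * cost J H r L k := by
      intro i
      apply ih
      intro v d hv
      have := h (embed i v) _ (near_embed q L k m d i v hv)
      push_cast at this
      linarith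
    have h3 := sum_le_sum fun i (_ : i ∈ univ) => h2 i
    simp only [sum_const, card_univ, ZMod.card, nsmul_eq_mul] at h3
    have h5 := mul_le_mul_of_nonneg_left h1 (by positivity : (0 : ℝ) ≤ (r : ℝ) ^ (k + 1))
    simp only [cost]
    push_cast at h3 h5 ⊢
    refine (add_le_add h5 h3).trans (le_of_eq ?_)
    ring

omit [NeZero J] in
theorem cost_le (L k : ℕ) (hr : 0 < r) :
    L * cost J H r L k ≤ (J * L) ^ k * (H * (L + k * r ^ k * H)) := by
  induction k with
  | zero => simp [cost, mul_comm]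
  | succ k ih =>
    have h1 : r ^ k ≤ r ^ (k + 1) := Nat.pow_le_pow_right hr (by omega)
    have h2 := Nat.mul_le_mul_left (J * L) ih
    have h3 : (J * L) ^ (k + 1) * (H * (k * r ^ k * H)) ≤
        (J * L) ^ (k + 1) * (H * (k * r ^ (k + 1) * H)) := by gcongr
    simp only [cost]
    rw [pow_succ (J * L)] at h3 ⊢
    nlinarith

end Vale.Agent.P238.Crt
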