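import Vale.Agent.P238.Strings
import Mathlib.NumberTheory.PrimeCounting
import Mathlib.FieldTheory.Finite.Basic

/-! Words built from nested shifts with coprime moduli. -/

namespace Vale.Agent.P238.Crt

open List

variable (J M : ℕ)

/-- states of the leaves -/
abbrev St (k : ℕ) : Type := (Fin k → ZMod J) → ZMod M

/-- symbols: address of a leaf and its state -/
abbrev Sy (k : ℕ) : Type := (Fin k → ZMod J) × ZMod M

variable {J M}

def child {k : ℕ} (i : ZMod J) (x : St J M (k + 1)) : St J M k := fun a => x (Fin.cons i a)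

def embed {k : ℕ} (i : ZMod J) : St J M k →+ St J M (k + 1) where
  toFun v := fun a => if a 0 = i then v (Fin.tail a) else 0
  map_zero' := by funext a; simp
  map_add' u v := by funext a; by_cases h : a 0 = i <;> simp [h]

def tag {k : ℕ} (i : ZMod J) (s : Sy J M k) : Sy J M (k + 1) := (Fin.cons i s.1, s.2)

theorem tag_inj {k : ℕ} {i i' : ZMod J} {s s' : Sy J M k} (h : tag i s = tag i' s') :
    i = i' ∧ s = s' := by
  have h1 := congrArg Prod.fst h
  have h2 := congrArg Prod.snd h
  simp only [tag, Fin.cons_inj] at h1 h2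
  exact ⟨h1.1, Prod.ext h1.2 h2⟩

theorem child_add {k : ℕ} (i : ZMod J) (x y : St J M (k + 1)) :
    child i (x + y) = child i x + child i y := rfl

theorem child_embed {k : ℕ} (i j : ZMod J) (v : St J M k) :
    child i (embed j v) = if i = j then v else 0 := by
  funext a
  by_cases h : i = j <;> simp [child, embed, h]

variable [NeZero J] (q : ℕ → ZMod J → ℕ)

/-- the multiplier: one modulo `m` and zero modulo the moduli of the children -/
def lam (k m : ℕ) : ℕ := (∏ i, q k i) ^ m.totient

variable (M) in
/-- the logical direction of a node of height `k` and modulus `m` -/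
def gen : (k : ℕ) → ℕ → St J M k
  | 0, m => fun _ => ((M / m : ℕ) : ZMod M)
  | k + 1, m => fun a => lam q k m • gen k (m * q k (a 0)) (Fin.tail a)

variable (M) in
/-- the direction realised by a shift -/
def diag (k m : ℕ) : St J M (k + 1) := fun a => gen M q k (m * q k (a 0)) (Fin.tail a)

theorem gen_succ (k m : ℕ) : gen M q (k + 1) m = lam q k m • diag M q k m := rfl

theorem child_diag (k m : ℕ) (i : ZMod J) : child i (diag M q k m) = gen M q k (m * q k i) := by
  funext a
  simp [child, diag]

theorem sum_embed (k m : ℕ) : ∑ i, embed i (gen M q k (m * q k i)) = diag M q k m := by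
  funext a
  simp [embed, diag, Finset.sum_apply]

theorem dvd_lam {k m : ℕ} (hm : 0 < m) (i : ZMod J) : q k i ∣ lam q k m :=
  (Finset.dvd_prod_of_mem _ (Finset.mem_univ i)).trans
    (dvd_pow_self _ (Nat.totient_pos.2 hm).ne')

/-- product of all the moduli below height `k` -/
def pr (k : ℕ) : ℕ := ∏ h ∈ Finset.range k, ∏ i, q h i

theorem pr_succ (k : ℕ) : pr q (k + 1) = pr q k * ∏ i, q k i := Finset.prod_range_succ _ _

theorem dvd_child {k m : ℕ} (h : m * pr q (k + 1) ∣ M) (i : ZMod J) : m * q k i * pr q k ∣ M := by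
  refine Dvd.dvd.trans ?_ h
  rw [pr_succ, mul_assoc, mul_comm (q k i)]
  exact Nat.mul_dvd_mul_left _ (Nat.mul_dvd_mul_left _
    (Finset.dvd_prod_of_mem _ (Finset.mem_univ i)))

theorem ord_gen (hq : ∀ k i, 0 < q k i) : ∀ (k m : ℕ), 0 < m → m * pr q k ∣ M →
    m • gen M q k m = 0 := by
  intro k
  induction k with
  | zero =>
    intro m _ h
    funext a
    have : m ∣ M := by simpa [pr] using h
    simp only [gen, Pi.smul_apply, nsmul_eq_mul, Pi.zero_apply]
    rw [← Nat.cast_mul, Nat.mul_div_cancel' this, ZMod.natCast_self]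
  | succ k ih =>
    intro m hm h
    funext a
    obtain ⟨c, hc⟩ := dvd_lam q (k := k) hm (a 0)
    have := congrFun (ih _ (Nat.mul_pos hm (hq k (a 0))) (dvd_child q h (a 0))) (Fin.tail a)
    simp only [gen, Pi.smul_apply, Pi.zero_apply, smul_smul] at this ⊢
    rw [hc, show m * (q k (a 0) * c) = c * (m * q k (a 0)) by ring, ← smul_smul, this, smul_zero]

variable (L : ℕ)

/-- the word attached to a state -/
def word : (k : ℕ) → ℕ → St J M k → List (Sy J M k)
  | 0, _, x => [(Fin.elim0, x Fin.elim0)]
  | k + 1, m, x => (range (J * L)).flatMap fun P : ℕ =>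
      (word k (m * q k P) (child (P : ZMod J) x + (P / J) • gen M q k (m * q k P))).map
        (tag (P : ZMod J))

def block (k m : ℕ) (x : St J M (k + 1)) (P : ℕ) : List (Sy J M (k + 1)) :=
  (word q L k (m * q k P) (child (P : ZMod J) x + (P / J) • gen M q k (m * q k P))).map
    (tag (P : ZMod J))

theorem word_succ (k m : ℕ) (x : St J M (k + 1)) :
    word q L (k + 1) m x = (range (J * L)).flatMap (block q L k m x) := rfl

theorem length_word (k m : ℕ) (x : St J M k) : (word q L k m x).length = (J * L) ^ k := by
  induction k generalizing m with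
  | zero => rfl
  | succ k ih =>
    rw [word_succ, length_flatMap_const _ _ ((J * L) ^ k)]
    · simp [pow_succ, mul_comm]
    · intro P; simp [block, ih]

theorem length_block (k m : ℕ) (x : St J M (k + 1)) (P : ℕ) :
    (block q L k m x P).length = (J * L) ^ k := by simp [block, length_word]

theorem count_residue (L d : ℕ) (i : ZMod J) :
    ∑ P ∈ Finset.range (J * L), (if (P : ZMod J) = i then d else 0) = L * d := by
  induction L with
  | zero => simp
  | succ L ih =>
    rw [show J * (L + 1) = J * L + J by ring, Finset.sum_range_add, ih]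
    simp only [Nat.cast_add, Nat.cast_mul, ZMod.natCast_self, zero_mul, zero_add]
    have : ∑ x ∈ Finset.range J, (if (x : ZMod J) = i then d else 0) = d := by
      rw [Finset.sum_eq_single i.val]
      · simp
      · intro b hb hne
        rw [if_neg]
        rintro rfl
        exact hne (ZMod.val_cast_of_lt (Finset.mem_range.1 hb)).symm
      · intro h
        exact absurd (Finset.mem_range.2 (ZMod.val_lt i)) h
    rw [this]; ring

theorem near_embed (k m d : ℕ) (i : ZMod J) (v : St J M k)
    (h : ∀ x, Near d (word q L k (m * q k i) x) (word q L k (m * q k i) (x + v)))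
    (x : St J M (k + 1)) :
    Near (L * d) (word q L (k + 1) m x) (word q L (k + 1) m (x + embed i v)) := by
  rw [word_succ, word_succ, ← count_residue L d i]
  apply Near.flatMap_range
  intro P
  unfold block
  apply Near.map
  rw [child_add, child_embed]
  split_ifs with hP
  · rw [add_right_comm, hP]
    exact h _
  · simpa using Near.refl _

theorem block_shift (k m : ℕ) (x : St J M (k + 1)) (j P : ℕ) :
    block q L k m (x + j • diag M q k m) P = block q L k m x (J * j + P) := by
  unfold block
  have e1 : ((J * j + P : ℕ) : ZMod J) = (P : ZMod J) := by simp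
  have e2 : (J * j + P) / J = j + P / J := Nat.mul_add_div (NeZero.pos J) _ _
  have e3 : child (P : ZMod J) (j • diag M q k m) = j • child (P : ZMod J) (diag M q k m) := rfl
  rw [e1, e2, child_add, e3, child_diag, add_smul, add_assoc]

theorem near_diag (k m H j : ℕ) (hj : j ≤ H) (hL : H ≤ L) (x : St J M (k + 1)) :
    Near (J * H * (J * L) ^ k) (word q L (k + 1) m x)
      (word q L (k + 1) m (x + j • diag M q k m)) := by
  obtain ⟨r, hr⟩ : ∃ r, J * L = J * j + r :=
    ⟨J * L - J * j, by have := Nat.mul_le_mul_left J (hj.trans hL); omega⟩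
  refine ⟨(range r).flatMap (block q L k m (x + j • diag M q k m)), ?_, ?_, ?_⟩
  · rw [word_succ, hr, List.range_add, flatMap_append, flatMap_map]
    refine Sublist.trans ?_ (sublist_append_right _ _)
    rw [show (block q L k m (x + j • diag M q k m)) = fun a => block q L k m x (J * j + a) from
      funext (block_shift q L k m x j)]
  · rw [word_succ, hr, add_comm (J * j) r, List.range_add, flatMap_append]
    exact sublist_append_left _ _
  · rw [length_word, length_flatMap_const _ _ _ (length_block q L k m _), length_range, pow_succ]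
    have : J * L ≤ r + J * H := by have := Nat.mul_le_mul_left J hj; omega
    nlinarith [Nat.zero_le ((J * L) ^ k)]

theorem near_leaf (m : ℕ) (x y : St J M 0) : Near 1 (word q L 0 m x) (word q L 0 m y) :=
  ⟨[], nil_sublist _, nil_sublist _, by simp [word]⟩

theorem card_good {g : ℕ} (R : ZMod J → ℤ → Prop) [∀ i o, Decidable (R i o)]
    (hg : ∀ o : ℤ, o ≠ 0 → |o| < L → (Finset.univ.filter fun i => R i o).card ≤ g)
    (C : Finset (ℕ × ℕ)) (c1 : ∀ c ∈ C, c.1 < J * L ∧ c.2 < J * L)
    (c2 : ∀ c ∈ C, ∀ c' ∈ C, c ≤ c' ∨ c' ≤ c)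
    (c3 : ∀ c ∈ C, (c.1 : ZMod J) = c.2 ∧ c.2 / J ≠ c.1 / J ∧
      R c.1 (((c.2 / J : ℕ) : ℤ) - (c.1 / J : ℕ))) : C.card ≤ g * (2 * L) := by
  have hJ := NeZero.pos J
  have lt : ∀ a, a < J * L → a / J < L := fun a h => Nat.div_lt_of_lt_mul h
  refine (Finset.card_le_mul_card_image (f := fun c : ℕ × ℕ => c.1 / J + c.2 / J) C g
    fun s hs => ?_).trans (Nat.mul_le_mul_left _ ?_)
  · obtain ⟨c₀, h0, rfl⟩ := Finset.mem_image.1 hs
    have rows : ∀ c ∈ C, c.1 / J + c.2 / J = c₀.1 / J + c₀.2 / J →
        c.1 / J = c₀.1 / J ∧ c.2 / J = c₀.2 / J := fun c hc e => by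
      rcases c2 c hc c₀ h0 with h | h
      · have := Nat.div_le_div_right (c := J) h.1
        have := Nat.div_le_div_right (c := J) h.2
        omega
      · have := Nat.div_le_div_right (c := J) h.1
        have := Nat.div_le_div_right (c := J) h.2
        omega
    have b1 := lt _ (c1 c₀ h0).1
    have b2 := lt _ (c1 c₀ h0).2
    have b3 := (c3 c₀ h0).2.1
    have b4 := Int.natCast_nonneg (c₀.1 / J)
    have b5 := Int.natCast_nonneg (c₀.2 / J)
    refine le_trans (Finset.card_le_card_of_injOn (fun c => (c.1 : ZMod J)) (fun c hc => ?_)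
      fun c hc c' hc' e => ?_) (hg (((c₀.2 / J : ℕ) : ℤ) - (c₀.1 / J : ℕ)) (by omega)
        (by rw [abs_lt]; omega))
    · simp only [Finset.coe_filter, Set.mem_ofPred_eq, Finset.mem_univ, true_and] at hc ⊢
      obtain ⟨r1, r2⟩ := rows c hc.1 hc.2
      rw [← r1, ← r2]
      exact (c3 c hc.1).2.2
    · simp only [Finset.coe_filter, Set.mem_ofPred_eq] at hc hc'
      obtain ⟨r1, r2⟩ := rows c hc.1 hc.2
      obtain ⟨r3, r4⟩ := rows c' hc'.1 hc'.2
      have e1 := (ZMod.natCast_eq_natCast_iff' _ _ _).1 e
      have e2 := (ZMod.natCast_eq_natCast_iff' _ _ _).1 (c3 c hc.1).1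
      have e3 := (ZMod.natCast_eq_natCast_iff' _ _ _).1 (c3 c' hc'.1).1
      refine Prod.ext ?_ ?_
      · rw [← Nat.div_add_mod c.1 J, ← Nat.div_add_mod c'.1 J, r1, r3, e1]
      · rw [← Nat.div_add_mod c.2 J, ← Nat.div_add_mod c'.2 J, r2, r4, ← e2, ← e3, e1]
  · rw [← Finset.card_range (2 * L)]
    refine Finset.card_le_card fun s hs => ?_
    obtain ⟨c, hc, rfl⟩ := Finset.mem_image.1 hs
    have := lt _ (c1 c hc).1
    have := lt _ (c1 c hc).2
    exact Finset.mem_range.2 (by omega)

theorem far [NeZero M] {g D : ℕ} (hD : J = D + 2 * g) (hJ : 2 ≤ J) (hq : ∀ k i, 0 < q k i)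
    (hc : ∀ k i, (q k i).Coprime (pr q k))
    (hg : ∀ k (o : ℤ), o ≠ 0 → |o| < L → (Finset.univ.filter fun i => (q k i : ℤ) ∣ o).card ≤ g) :
    ∀ (k m : ℕ) (x : St J M k) (t : ℤ), 0 < m → m * pr q k ∣ M → m.Coprime (pr q k) →
      ¬ (m : ℤ) ∣ t → ∀ s, s <+ word q L k m x → s <+ word q L k m (x + t • gen M q k m) →
        s.length + (D * L) ^ k ≤ (J * L) ^ k := by
  intro k
  induction k with
  | zero =>
    intro m x t hm hM _ ht s h1 h2
    simp only [word] at h1 h2
    cases s with
    | nil => simp
    | cons a s =>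
      exfalso
      have a1 := h1.subset (mem_cons_self (a := a) (l := s))
      have a2 := h2.subset (mem_cons_self (a := a) (l := s))
      simp only [mem_singleton] at a1 a2
      rw [a1] at a2
      obtain ⟨c, hc⟩ : m ∣ M := by simpa [pr] using hM
      have c0 : c ≠ 0 := by rintro rfl; exact NeZero.ne M (by simpa using hc)
      have e : M / m = c := by rw [hc, Nat.mul_div_cancel_left _ hm]
      have : ((t * c : ℤ) : ZMod M) = 0 := by simpa [gen, e] using a2
      rw [ZMod.intCast_zmod_eq_zero_iff_dvd, hc] at this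
      push_cast at this
      exact ht (Int.dvd_of_mul_dvd_mul_right (by exact_mod_cast c0) this)
  | succ k ih =>
    intro m x t hm hM hco ht s h1 h2
    classical
    set n := (J * L) ^ k with hn
    set δ := (D * L) ^ k with hδ
    have hδm : δ ≤ n := Nat.pow_le_pow_left (Nat.mul_le_mul_right _ (by omega)) k
    let A : ℕ × ℕ → Prop := fun c => (c.1 : ZMod J) = (c.2 : ZMod J)
    let Bd : ℕ × ℕ → Prop := fun c => (c.1 : ZMod J) = c.2 ∧ c.2 / J ≠ c.1 / J ∧
      (q k c.1 : ℤ) ∣ ((c.2 / J : ℕ) : ℤ) - (c.1 / J : ℕ)
    let wt : ℕ × ℕ → ℕ := fun c => (if A c then n - δ else 0) + (if Bd c then δ else 0)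
    have hco1 : m.Coprime (pr q k) := by rw [pr_succ] at hco; exact hco.coprime_mul_right_right
    have hco2 : (m : ℤ) ∣ lam q k m - 1 := by
      rw [pr_succ] at hco
      exact (Nat.ModEq.pow_totient hco.coprime_mul_left_right.symm).symm.dvd
    have hwt : ∀ P P' u, u <+ block q L k m x P →
        u <+ block q L k m (x + t • gen M q (k + 1) m) P' → u.length ≤ wt (P, P') := by
      intro P P' u a1 a2
      by_cases hA : (P : ZMod J) = (P' : ZMod J)
      · unfold block at a1 a2
        rw [← hA] at a2
        obtain ⟨s1, b1, e1⟩ := sublist_map_iff.1 a1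
        obtain ⟨s2, b2, e2⟩ := sublist_map_iff.1 a2
        have e3 : s1 = s2 :=
          (List.map_injective_iff.2 (fun _ _ h => (tag_inj h).2)) (e1.symm.trans e2)
        have e4 : u.length = s1.length := by rw [e1, length_map]
        rw [e4]
        subst e3
        by_cases hB : ((m * q k P : ℕ) : ℤ) ∣ t * lam q k m + (P' / J : ℕ) - (P / J : ℕ)
        · have := b1.length_le
          rw [length_word] at this
          have hb : Bd (P, P') := by
            push_cast at hB
            refine ⟨hA, fun e => ht ?_, ?_⟩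
            · have e' : P' / J = P / J := e
              have h3 := (dvd_mul_right (m : ℤ) (q k P)).trans hB
              rw [← Int.natCast_div, ← Int.natCast_div, e', add_sub_cancel_right] at h3
              have h4 := dvd_sub h3 (hco2.mul_left t)
              rwa [show t * (lam q k m : ℤ) - t * (lam q k m - 1) = t by ring] at h4
            · have h3 := (dvd_mul_left (q k P : ℤ) m).trans hB
              have h4 : (q k P : ℤ) ∣ t * lam q k m :=
                (Int.natCast_dvd_natCast.2 (dvd_lam q hm _)).mul_left t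
              have h5 := dvd_sub h3 h4
              rw [add_sub_assoc, add_sub_cancel_left] at h5
              exact_mod_cast h5
          simp only [wt, if_pos hb, if_pos (show A (P, P') from hA)]
          omega
        · have e5 : child (P : ZMod J) (x + t • gen M q (k + 1) m) +
              (P' / J) • gen M q k (m * q k P) =
              (child (P : ZMod J) x + (P / J) • gen M q k (m * q k P)) +
                (t * lam q k m + (P' / J : ℕ) - (P / J : ℕ)) • gen M q k (m * q k P) := by
            have e6 : child (P : ZMod J) (t • gen M q (k + 1) m) =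
                t • lam q k m • child (P : ZMod J) (diag M q k m) := rfl
            rw [child_add, e6, child_diag, sub_smul, add_smul, mul_smul, natCast_zsmul,
              natCast_zsmul, natCast_zsmul]
            abel
          rw [e5] at b2
          have := ih _ _ _ (Nat.mul_pos hm (hq k P)) (dvd_child q hM _)
            (Nat.Coprime.mul_left hco1 (hc k P)) hB s1 b1 b2
          simp only [wt, if_pos (show A (P, P') from hA)]
          omega
      · cases u with
        | nil => simp
        | cons a u =>
          exfalso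
          have c1 := a1.subset (mem_cons_self (a := a) (l := u))
          have c2 := a2.subset (mem_cons_self (a := a) (l := u))
          simp only [block, mem_map] at c1 c2
          obtain ⟨b, _, rfl⟩ := c1
          obtain ⟨b', _, e⟩ := c2
          exact hA (tag_inj e).1.symm
    rw [word_succ] at h1 h2
    obtain ⟨C, c1, c2, c3⟩ := exists_chain _ _ wt hwt _ _ _ rfl s h1 h2
    have hA : (C.filter A).card ≤ J * L := by
      apply card_le_of_separated _ 2 _ (by omega)
      · intro c hc
        have := c1 c (Finset.mem_filter.1 hc).1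
        omega
      · intro c hc c' hc'
        exact c2 c (Finset.mem_filter.1 hc).1 c' (Finset.mem_filter.1 hc').1
      · intro c hc c' hc' hle hne
        have d1 : (c.1 : ZMod J) = c.2 := (Finset.mem_filter.1 hc).2
        have d2 : (c'.1 : ZMod J) = c'.2 := (Finset.mem_filter.1 hc').2
        have d3 : c.1 ≤ c'.1 := hle.1
        have d4 : c.2 ≤ c'.2 := hle.2
        have d5 : ¬ (c.1 = c'.1 ∧ c.2 = c'.2) := fun h => hne (Prod.ext h.1 h.2)
        have d6 : ∀ a : ℕ, (a : ZMod J) ≠ (a + 1 : ℕ) := fun a e => by
          have : ((1 : ℕ) : ZMod J) = 0 := by simpa using e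
          have := Nat.le_of_dvd one_pos ((ZMod.natCast_eq_zero_iff _ _).1 this)
          omega
        by_contra hlt
        rcases (by omega : (c'.1 = c.1 ∧ c'.2 = c.2 + 1) ∨ (c'.1 = c.1 + 1 ∧ c'.2 = c.2)) with
          ⟨e1, e2⟩ | ⟨e1, e2⟩
        · exact d6 c.2 (by rw [← e2, ← d2, e1, d1])
        · exact d6 c.1 (by rw [← e1, d2, e2, d1])
    have hB : (C.filter Bd).card ≤ g * (2 * L) :=
      card_good L (fun i o => (q k i : ℤ) ∣ o) (hg k) _
        (fun c hc => c1 c (Finset.mem_filter.1 hc).1)
        (fun c hc c' hc' => c2 c (Finset.mem_filter.1 hc).1 c' (Finset.mem_filter.1 hc').1)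
        fun c hc => (Finset.mem_filter.1 hc).2
    have hsum : ∑ c ∈ C, wt c = (C.filter A).card * (n - δ) + (C.filter Bd).card * δ := by
      simp only [wt, Finset.sum_add_distrib]
      rw [← Finset.sum_filter, ← Finset.sum_filter]
      simp
    rw [hsum] at c3
    have i1 : (C.filter A).card * (n - δ) ≤ J * L * (n - δ) := Nat.mul_le_mul_right _ hA
    have i2 : (C.filter Bd).card * δ ≤ g * (2 * L) * δ := Nat.mul_le_mul_right _ hB
    obtain ⟨e, he⟩ : ∃ e, n = δ + e := ⟨n - δ, by omega⟩
    have i3 : n - δ = e := by omega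
    rw [pow_succ, pow_succ, ← hn, ← hδ]
    rw [i3] at i1 c3
    rw [he]
    have i4 : J * L * δ = D * L * δ + g * (2 * L) * δ := by rw [hD]; ring
    nlinarith

end Vale.Agent.P238.Crt
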