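import Mathlib.Analysis.Normed.Lp.lpSpace
import Mathlib.Order.Lattice.Nat

namespace Vale.Agent.P238

/-- One unit-cost edit operation on words: insert, delete or substitute one symbol. -/
inductive Step {α : Type} : List α → List α → Prop
  | ins (u v : List α) (a : α) : Step (u ++ v) (u ++ a :: v)
  | del (u v : List α) (a : α) : Step (u ++ a :: v) (u ++ v)
  | sub (u v : List α) (a b : α) : Step (u ++ a :: v) (u ++ b :: v)

/-- `Steps k x y`: the word `x` is transformed into `y` by exactly `k` edit operations. -/
inductive Steps {α : Type} : ℕ → List α → List α → Prop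
  | refl (x : List α) : Steps 0 x x
  | cons {k : ℕ} {x y z : List α} : Step x y → Steps k y z → Steps (k + 1) x z

/-- Edit distance: the least number of edit operations transforming `x` into `y`. -/
noncomputable def ED {α : Type} (x y : List α) : ℕ := sInf {k : ℕ | Steps k x y}

/-- The real sequence space `ℓ₁`. -/
abbrev Ell1 : Type := lp (fun _ : ℕ => ℝ) 1

/-- Distortion of a map `f : X → ℓ₁` for the metric `ρ`: largest expansion ratio times largest
contraction ratio, over pairs of distinct points. -/
noncomputable def distortion {X : Type} (ρ : X → X → ℝ) (f : X → Ell1) : ℝ :=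
  (⨆ p : {p : X × X // p.1 ≠ p.2}, ‖f p.1.1 - f p.1.2‖ / ρ p.1.1 p.1.2) *
    (⨆ p : {p : X × X // p.1 ≠ p.2}, ρ p.1.1 p.1.2 / ‖f p.1.1 - f p.1.2‖)

/-- `c₁(X, ρ)`: the infimum of the distortion over injective maps `X → ℓ₁`. -/
noncomputable def c1 {X : Type} (ρ : X → X → ℝ) : ℝ :=
  ⨅ f : {f : X → Ell1 // Function.Injective f}, distortion ρ f.1

/-- Edit distance on binary words of length `n`, that is on `{0,1}^n`. -/
noncomputable def binED (n : ℕ) (x y : Fin n → Bool) : ℝ :=
  (ED (List.ofFn x) (List.ofFn y) : ℝ)

end Vale.Agent.P238
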