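import Vale.Agent.P238.Defs
import Mathlib.Tactic.Linarith
import Mathlib.Data.List.Basic

namespace Vale.Agent.P238

open List

variable {α β : Type}

theorem Steps.trans {a b : ℕ} {x y z : List α} (h1 : Steps a x y) (h2 : Steps b y z) :
    Steps (a + b) x z := by
  induction h1 with
  | refl x => simpa using h2
  | cons hs _ ih =>
    have := Steps.cons hs (ih h2)
    rwa [Nat.add_right_comm] at this

theorem Steps.single {x y : List α} (h : Step x y) : Steps 1 x y :=
  Steps.cons h (Steps.refl y)

theorem Step.cons (c : α) {x y : List α} (h : Step x y) : Step (c :: x) (c :: y) := by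
  cases h with
  | ins u v a => exact Step.ins (c :: u) v a
  | del u v a => exact Step.del (c :: u) v a
  | sub u v a b => exact Step.sub (c :: u) v a b

theorem Steps.consHead (c : α) {k : ℕ} {x y : List α} (h : Steps k x y) :
    Steps k (c :: x) (c :: y) := by
  induction h with
  | refl x => exact Steps.refl _
  | cons hs _ ih => exact Steps.cons (hs.cons c) ih

theorem Steps.appendLeft (u : List α) {k : ℕ} {x y : List α} (h : Steps k x y) :
    Steps k (u ++ x) (u ++ y) := by
  induction u with
  | nil => simpa using h
  | cons c u ih => exact ih.consHead c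

theorem steps_del_of_sublist {s x : List α} (h : s <+ x) :
    Steps (x.length - s.length) x s := by
  induction h with
  | slnil => exact Steps.refl _
  | @cons s x a h ih =>
    have hl := h.length_le
    have e : (a :: x).length - s.length = (x.length - s.length) + 1 := by
      simp only [length_cons]; omega
    rw [e]
    exact Steps.cons (Step.del [] x a) ih
  | @cons_cons s x a h ih =>
    have e : (a :: x).length - (a :: s).length = (x.length - s.length) := by
      simp only [length_cons]; omega
    rw [e]
    exact ih.consHead a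

theorem steps_ins_of_sublist {s x : List α} (h : s <+ x) :
    Steps (x.length - s.length) s x := by
  induction h with
  | slnil => exact Steps.refl _
  | @cons s x a h ih =>
    have hl := h.length_le
    have e : (a :: x).length - s.length = (x.length - s.length) + 1 := by
      simp only [length_cons]; omega
    rw [e]
    exact ih.trans (Steps.single (Step.ins [] x a))
  | @cons_cons s x a h ih =>
    have e : (a :: x).length - (a :: s).length = (x.length - s.length) := by
      simp only [length_cons]; omega
    rw [e]
    exact ih.consHead a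

theorem ED_le_of_steps {k : ℕ} {x y : List α} (h : Steps k x y) : ED x y ≤ k :=
  Nat.sInf_le h

theorem ED_le_of_sublist {s x y : List α} (hx : s <+ x) (hy : s <+ y) :
    ED x y ≤ (x.length - s.length) + (y.length - s.length) :=
  ED_le_of_steps ((steps_del_of_sublist hx).trans (steps_ins_of_sublist hy))

theorem steps_ED (x y : List α) : Steps (ED x y) x y :=
  Nat.sInf_mem (s := {k : ℕ | Steps k x y})
    ⟨_, (steps_del_of_sublist (nil_sublist x)).trans (steps_ins_of_sublist (nil_sublist y))⟩

theorem ED_self (x : List α) : ED x x = 0 :=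
  Nat.le_zero.1 (ED_le_of_steps (Steps.refl x))

theorem sublist_drop_one {s u v : List α} {a : α} (h : s <+ u ++ a :: v) :
    ∃ t, t <+ s ∧ t <+ u ++ v ∧ s.length ≤ t.length + 1 := by
  obtain ⟨s1, s2, rfl, h1, h2⟩ := sublist_append_iff.1 h
  rcases sublist_cons_iff.1 h2 with h3 | ⟨r, rfl, h3⟩
  · exact ⟨s1 ++ s2, Sublist.refl _, h1.append h3, by omega⟩
  · refine ⟨s1 ++ r, (Sublist.refl s1).append (sublist_cons_self a r), h1.append h3, ?_⟩
    simp only [length_append, length_cons]; omega

/-- A step from `x` to `y` loses at most one symbol of any subsequence of `y`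
(or none, with `x` one shorter). -/
theorem Step.sublist_back {x y : List α} (h : Step x y) {s : List α} (hs : s <+ y) :
    ∃ t, t <+ s ∧ t <+ x ∧ x.length + s.length ≤ t.length + y.length + 1 := by
  cases h with
  | ins u v a =>
    obtain ⟨t, h1, h2, h3⟩ := sublist_drop_one hs
    refine ⟨t, h1, h2, ?_⟩
    simp only [length_append, length_cons]; omega
  | del u v a =>
    refine ⟨s, Sublist.refl _, hs.trans ((Sublist.refl u).append (sublist_cons_self a v)), ?_⟩
    simp only [length_append, length_cons]; omega
  | sub u v a b =>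
    obtain ⟨t, h1, h2, h3⟩ := sublist_drop_one hs
    refine ⟨t, h1, h2.trans ((Sublist.refl u).append (sublist_cons_self a v)), ?_⟩
    simp only [length_append, length_cons]; omega

theorem Steps.exists_sublist {k : ℕ} {x y : List α} (h : Steps k x y) :
    ∃ s, s <+ x ∧ s <+ y ∧ x.length ≤ s.length + k := by
  induction h with
  | refl x => exact ⟨x, Sublist.refl _, Sublist.refl _, le_rfl⟩
  | cons hs _ ih =>
    obtain ⟨s, h1, h2, h3⟩ := ih
    obtain ⟨t, h4, h5, h6⟩ := hs.sublist_back h1
    exact ⟨t, h5, h4.trans h2, by omega⟩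

/-! ### Splitting at separators -/

/-- Split a list at the entries satisfying `P`. -/
def splitAtP (P : α → Bool) : List α → List (List α)
  | [] => [[]]
  | a :: l => if P a then [] :: splitAtP P l else (splitAtP P l).modifyHead (a :: ·)

theorem splitAtP_ne_nil (P : α → Bool) (l : List α) : ∃ h T, splitAtP P l = h :: T := by
  induction l with
  | nil => exact ⟨_, _, rfl⟩
  | cons a l ih =>
    obtain ⟨h, T, e⟩ := ih
    by_cases ha : P a
    · exact ⟨[], splitAtP P l, by simp [splitAtP, ha]⟩
    · exact ⟨a :: h, T, by simp [splitAtP, ha, e]⟩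

theorem splitAtP_append (P : α → Bool) (u : List α) :
    ∃ A t, ∀ v h T, splitAtP P v = h :: T → splitAtP P (u ++ v) = A ++ (t ++ h) :: T := by
  induction u with
  | nil => exact ⟨[], [], fun v h T e => by simpa using e⟩
  | cons a u ih =>
    obtain ⟨A, t, H⟩ := ih
    by_cases ha : P a
    · refine ⟨[] :: A, t, fun v h T e => ?_⟩
      simp [splitAtP, ha, H v h T e]
    · cases A with
      | nil =>
        refine ⟨[], a :: t, fun v h T e => ?_⟩
        simp [splitAtP, ha, H v h T e]
      | cons B A =>
        refine ⟨(a :: B) :: A, t, fun v h T e => ?_⟩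
        simp [splitAtP, ha, H v h T e]

theorem steps_two_of_forms {A T : List β} {p q r : β} :
    Steps 2 (A ++ p :: T) (A ++ q :: r :: T) ∧ Steps 2 (A ++ q :: r :: T) (A ++ p :: T) ∧
      Steps 2 (A ++ p :: T) (A ++ q :: T) := by
  refine ⟨?_, ?_, ?_⟩
  · exact Steps.cons (Step.sub A T p r) (Steps.single (Step.ins A (r :: T) q))
  · exact Steps.cons (Step.del A (r :: T) q) (Steps.single (Step.sub A T r p))
  · exact Steps.cons (Step.sub A T p p) (Steps.single (Step.sub A T p q))

theorem Step.splitAtP (P : α → Bool) {x y : List α} (h : Step x y) :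
    Steps 2 (splitAtP P x) (splitAtP P y) := by
  have key : ∀ (u v : List α), ∃ (A T : List (List α)) (t h : List α),
      Vale.Agent.P238.splitAtP P (u ++ v) = A ++ (t ++ h) :: T ∧
      ∀ a, Vale.Agent.P238.splitAtP P (u ++ a :: v) =
        if P a then A ++ t :: h :: T else A ++ (t ++ a :: h) :: T := by
    intro u v
    obtain ⟨A, t, H⟩ := splitAtP_append P u
    obtain ⟨h, T, e⟩ := splitAtP_ne_nil P v
    refine ⟨A, T, t, h, H v h T e, fun a => ?_⟩
    by_cases ha : P a
    · rw [H (a :: v) [] (h :: T) (by simp [Vale.Agent.P238.splitAtP, ha, e])]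
      simp [ha]
    · rw [H (a :: v) (a :: h) T (by simp [Vale.Agent.P238.splitAtP, ha, e])]
      simp [ha]
  cases h with
  | ins u v a =>
    obtain ⟨A, T, t, h, e1, e2⟩ := key u v
    rw [e1, e2 a]
    split_ifs
    · exact steps_two_of_forms.1
    · exact (steps_two_of_forms (r := h)).2.2
  | del u v a =>
    obtain ⟨A, T, t, h, e1, e2⟩ := key u v
    rw [e1, e2 a]
    split_ifs
    · exact steps_two_of_forms.2.1
    · exact (steps_two_of_forms (r := h)).2.2
  | sub u v a b =>
    obtain ⟨A, T, t, h, e1, e2⟩ := key u v
    rw [e2 a, e2 b]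
    split_ifs
    · exact (steps_two_of_forms (r := h)).2.2
    · exact steps_two_of_forms.2.1
    · exact steps_two_of_forms.1
    · exact (steps_two_of_forms (r := h)).2.2

theorem Steps.splitAtP (P : α → Bool) {k : ℕ} {x y : List α} (h : Steps k x y) :
    Steps (2 * k) (splitAtP P x) (splitAtP P y) := by
  induction h with
  | refl x => exact Steps.refl _
  | @cons k x y z hs _ ih =>
    have := (hs.splitAtP P).trans ih
    rwa [show 2 + 2 * k = 2 * (k + 1) by omega] at this

theorem splitAtP_block (P : α → Bool) (u v : List α) (a : α) (hu : ∀ b ∈ u, P b = false)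
    (ha : P a = true) : splitAtP P (u ++ a :: v) = u :: splitAtP P v := by
  induction u with
  | nil => simp [splitAtP, ha]
  | cons b u ih =>
    have hb : P b = false := hu b (by simp)
    have := ih (fun c hc => hu c (by simp [hc]))
    simp [splitAtP, hb, this]

/-- Removing a common tail from both words of a common subsequence. -/
theorem sublist_strip {s X Y Z : List α} (hx : s <+ X ++ Z) (hy : s <+ Y ++ Z) :
    ∃ t, t <+ X ∧ t <+ Y ∧ s.length ≤ t.length + Z.length := by
  obtain ⟨s1, s2, e1, h1, h2⟩ := sublist_append_iff.1 hx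
  obtain ⟨t1, t2, e2, h3, h4⟩ := sublist_append_iff.1 hy
  have hl2 := h2.length_le
  have hl4 := h4.length_le
  rcases append_eq_append_iff.1 (e1.symm.trans e2) with ⟨r, e3, _⟩ | ⟨r, e3, _⟩
  · refine ⟨s1, h1, ?_, ?_⟩
    · exact (sublist_append_left s1 r).trans (e3 ▸ h3)
    · rw [e1, length_append]; omega
  · refine ⟨t1, ?_, h3, ?_⟩
    · exact (sublist_append_left t1 r).trans (e3 ▸ h1)
    · rw [e2, length_append]; omega

end Vale.Agent.P238
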