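import Vale.Agent.P238.EditBasic
import Mathlib.Data.ZMod.Basic
import Mathlib.Data.List.Flatten

namespace Vale.Agent.P238

open List

abbrev F : Type := ZMod 7

def encDigit (d : F) : List Bool :=
  replicate d.val false ++ true :: (replicate (6 - d.val) false ++ [true])

def encSym (s : List F) : List Bool := s.flatMap encDigit ++ (replicate 7 false ++ [true])

def enc (x : List (List F)) : List Bool := x.flatMap encSym

def runs (d : F) : List (List Bool) := [replicate d.val false, replicate (6 - d.val) false]

def code (s : List F) : List (List Bool) := s.flatMap runs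

theorem val_le_six (d : F) : d.val ≤ 6 := by
  have := ZMod.val_lt d
  omega

theorem length_encDigit (d : F) : (encDigit d).length = 8 := by
  have := val_le_six d
  simp only [encDigit, length_append, length_replicate, length_cons, length_nil]
  omega

theorem length_encSym (s : List F) : (encSym s).length = 8 * s.length + 8 := by
  have : (s.flatMap encDigit).length = 8 * s.length := by
    induction s with
    | nil => simp
    | cons d s ih => simp only [flatMap_cons, length_append, ih, length_encDigit, length_cons]; omega
  simp only [encSym, length_append, this, length_replicate, length_cons, length_nil]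

theorem length_enc (q : ℕ) (x : List (List F)) (hx : ∀ s ∈ x, s.length = q) :
    (enc x).length = x.length * (8 * q + 8) := by
  induction x with
  | nil => simp [enc]
  | cons s x ih =>
    have h1 := ih (fun t ht => hx t (by simp [ht]))
    have h2 := hx s (by simp)
    simp only [enc, flatMap_cons, length_append, length_encSym, length_cons] at h1 ⊢
    rw [h1, h2]; ring

theorem split_encDigit (d : F) (v : List Bool) :
    splitAtP id (encDigit d ++ v) = runs d ++ splitAtP id v := by
  have e : encDigit d ++ v =
      replicate d.val false ++ true :: (replicate (6 - d.val) false ++ true :: v) := by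
    simp [encDigit]
  rw [e, splitAtP_block id _ _ true (by simp) rfl, splitAtP_block id _ _ true (by simp) rfl]
  simp [runs]

theorem split_encSym (s : List F) (v : List Bool) :
    splitAtP id (encSym s ++ v) = code s ++ replicate 7 false :: splitAtP id v := by
  induction s with
  | nil =>
    have e : encSym [] ++ v = replicate 7 false ++ true :: v := by simp [encSym]
    rw [e, splitAtP_block id _ _ true (by simp) rfl]
    simp [code]
  | cons d s ih =>
    have e : encSym (d :: s) ++ v = encDigit d ++ (encSym s ++ v) := by simp [encSym]
    rw [e, split_encDigit, ih]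
    simp [code]

def isSep (r : List Bool) : Bool := decide (r.length = 7)

theorem code_not_sep (s : List F) : ∀ r ∈ code s, isSep r = false := by
  intro r hr
  simp only [code, mem_flatMap, runs, mem_cons, not_mem_nil, or_false] at hr
  obtain ⟨d, _, h | h⟩ := hr
  · have := val_le_six d
    simp only [isSep, h, length_replicate, decide_eq_false_iff_not]; omega
  · simp only [isSep, h, length_replicate, decide_eq_false_iff_not]; omega

theorem split_enc (x : List (List F)) (v : List Bool) :
    splitAtP isSep (splitAtP id (enc x ++ v)) = x.map code ++ splitAtP isSep (splitAtP id v) := by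
  induction x with
  | nil => simp [enc]
  | cons s x ih =>
    have e : enc (s :: x) ++ v = encSym s ++ (enc x ++ v) := by simp [enc]
    rw [e, split_encSym, splitAtP_block isSep _ _ _ (code_not_sep s) (by simp [isSep]), ih]
    simp

theorem code_injective : Function.Injective code := by
  intro s
  induction s with
  | nil =>
    intro t h
    cases t with
    | nil => rfl
    | cons d t => simp [code, runs] at h
  | cons d s ih =>
    intro t h
    cases t with
    | nil => simp [code, runs] at h
    | cons e t =>
      simp only [code, flatMap_cons, runs, cons_append, nil_append, cons.injEq] at h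
      obtain ⟨h1, _, h3⟩ := h
      have h4 : d.val = e.val := by simpa using congrArg List.length h1
      rw [ZMod.val_injective 7 h4, ih h3]

theorem enc_lower (x y : List (List F)) (v : List Bool) :
    ∃ s, s <+ x ∧ s <+ y ∧ x.length ≤ s.length + 4 * ED (enc x ++ v) (enc y ++ v) := by
  have h := ((steps_ED (enc x ++ v) (enc y ++ v)).splitAtP id).splitAtP isSep
  rw [split_enc, split_enc] at h
  obtain ⟨s, h1, h2, h3⟩ := h.exists_sublist
  obtain ⟨t, h4, h5, h6⟩ := sublist_strip h1 h2
  obtain ⟨s1, h7, e1⟩ := sublist_map_iff.1 h4
  obtain ⟨s2, h8, e2⟩ := sublist_map_iff.1 h5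
  have e3 : s1 = s2 := (List.map_injective_iff.2 code_injective) (e1.symm.trans e2)
  refine ⟨s1, h7, e3 ▸ h8, ?_⟩
  have e4 : t.length = s1.length := by rw [e1, length_map]
  simp only [length_append, length_map] at h3
  omega

theorem enc_upper (q d : ℕ) {s x y : List (List F)} (v : List Bool)
    (hx : ∀ a ∈ x, a.length = q) (hy : ∀ a ∈ y, a.length = q)
    (h1 : s <+ x) (h2 : s <+ y) (h3 : x.length ≤ s.length + d) (h4 : y.length ≤ s.length + d) :
    ED (enc x ++ v) (enc y ++ v) ≤ 2 * d * (8 * q + 8) := by
  have hs : ∀ a ∈ s, a.length = q := fun a ha => hx a (h1.subset ha)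
  have := ED_le_of_sublist ((h1.flatMap encSym).append (Sublist.refl v))
    ((h2.flatMap encSym).append (Sublist.refl v))
  have e1 := length_enc q x hx
  have e2 := length_enc q y hy
  have e3 := length_enc q s hs
  simp only [enc] at e1 e2 e3 ⊢
  simp only [length_append, e1, e2, e3] at this
  have a1 : x.length * (8 * q + 8) ≤ s.length * (8 * q + 8) + d * (8 * q + 8) := by
    rw [← Nat.add_mul]; exact Nat.mul_le_mul_right _ h3
  have a2 : y.length * (8 * q + 8) ≤ s.length * (8 * q + 8) + d * (8 * q + 8) := by
    rw [← Nat.add_mul]; exact Nat.mul_le_mul_right _ h4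
  have a3 : 2 * d * (8 * q + 8) = d * (8 * q + 8) + d * (8 * q + 8) := by ring
  omega

end Vale.Agent.P238
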