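import Vale.Agent.P238.Encode
import Mathlib.Algebra.BigOperators.Fin
import Mathlib.Algebra.Field.ZMod
import Mathlib.Tactic.NormNum.Prime

namespace Vale.Agent.P238

open List

abbrev G (k : ℕ) : Type := (Fin k → F) → F

def w (k : ℕ) : G k := fun a => ∏ j, a j

def child {k : ℕ} (i : F) (x : G (k + 1)) : G k := fun a => x (Fin.cons i a)

def embed {k : ℕ} (i : F) : G k →+ G (k + 1) where
  toFun v := fun a => if a 0 = i then v (Fin.tail a) else 0
  map_zero' := by funext a; simp
  map_add' u v := by funext a; by_cases h : a 0 = i <;> simp [h]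

def diag (k : ℕ) : G (k + 1) := fun a => w k (Fin.tail a)

theorem child_add {k : ℕ} (i : F) (x y : G (k + 1)) : child i (x + y) = child i x + child i y :=
  rfl

theorem child_smul {k : ℕ} (i c : F) (x : G (k + 1)) : child i (c • x) = c • child i x := rfl

theorem child_w (k : ℕ) (i : F) : child i (w (k + 1)) = i • w k := by
  funext a
  simp [child, w, Fin.prod_univ_succ]

theorem child_diag (k : ℕ) (i : F) : child i (diag k) = w k := by
  funext a
  simp [child, diag]

theorem child_embed {k : ℕ} (i j : F) (v : G k) :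
    child i (embed j v) = if i = j then v else 0 := by
  funext a
  by_cases h : i = j <;> simp [child, embed, h]

theorem sum_embed (k : ℕ) : ∑ i : F, embed i (w k) = diag k := by
  funext a
  simp [embed, diag, Finset.sum_apply]

theorem sum_smul_embed (k : ℕ) : ∑ i : F, embed i (i • w k) = w (k + 1) := by
  funext a
  simp [embed, w, Finset.sum_apply, Fin.prod_univ_succ, Fin.tail]

/-- The word attached to `x`; `L` is the number of rows in each node. -/
def word (L : ℕ) : (k : ℕ) → G k → List (List F)
  | 0, x => [[x Fin.elim0]]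
  | k + 1, x => (range (7 * L)).flatMap fun P : ℕ =>
      (word L k (child (P : F) x + ((P / 7 : ℕ) : F) • w k)).map ((P : F) :: ·)

def block (L k : ℕ) (x : G (k + 1)) (P : ℕ) : List (List F) :=
  (word L k (child (P : F) x + ((P / 7 : ℕ) : F) • w k)).map ((P : F) :: ·)

theorem word_succ (L k : ℕ) (x : G (k + 1)) :
    word L (k + 1) x = (range (7 * L)).flatMap (block L k x) := rfl

theorem length_flatMap_const {α β : Type} (l : List α) (f : α → List β) (m : ℕ)
    (h : ∀ a, (f a).length = m) : (l.flatMap f).length = l.length * m := by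
  induction l with
  | nil => simp
  | cons a l ih => simp only [flatMap_cons, length_append, ih, h, length_cons]; ring

theorem length_word (L k : ℕ) (x : G k) : (word L k x).length = (7 * L) ^ k := by
  induction k with
  | zero => rfl
  | succ k ih =>
    rw [word_succ, length_flatMap_const _ _ ((7 * L) ^ k)]
    · simp [pow_succ, mul_comm]
    · intro P; simp [block, ih]

theorem length_block (L k : ℕ) (x : G (k + 1)) (P : ℕ) :
    (block L k x P).length = (7 * L) ^ k := by simp [block, length_word]

theorem length_mem_word (L k : ℕ) (x : G k) : ∀ a ∈ word L k x, a.length = k + 1 := by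
  induction k with
  | zero => intro a ha; simp [word] at ha; simp [ha]
  | succ k ih =>
    intro a ha
    rw [word_succ, mem_flatMap] at ha
    obtain ⟨P, _, hP⟩ := ha
    simp only [block, mem_map] at hP
    obtain ⟨b, hb, rfl⟩ := hP
    simp [ih _ b hb]

/-- Common subsequence missing at most `d` symbols of `x`. -/
def Near {α : Type} (d : ℕ) (x y : List α) : Prop :=
  ∃ s, s <+ x ∧ s <+ y ∧ x.length ≤ s.length + d

theorem Near.refl {α : Type} (x : List α) : Near 0 x x :=
  ⟨x, Sublist.refl _, Sublist.refl _, le_rfl⟩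

theorem Near.map {α β : Type} (f : α → β) {d : ℕ} {x y : List α} (h : Near d x y) :
    Near d (x.map f) (y.map f) := by
  obtain ⟨s, h1, h2, h3⟩ := h
  exact ⟨s.map f, h1.map f, h2.map f, by simpa using h3⟩

theorem Near.append {α : Type} {d e : ℕ} {x y u v : List α} (h : Near d x y) (h' : Near e u v) :
    Near (d + e) (x ++ u) (y ++ v) := by
  obtain ⟨s, h1, h2, h3⟩ := h
  obtain ⟨t, h4, h5, h6⟩ := h'
  refine ⟨s ++ t, h1.append h4, h2.append h5, ?_⟩
  simp only [length_append]; omega

theorem Near.mono {α : Type} {d e : ℕ} {x y : List α} (h : Near d x y) (hde : d ≤ e) :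
    Near e x y := by
  obtain ⟨s, h1, h2, h3⟩ := h
  exact ⟨s, h1, h2, by omega⟩

theorem Near.flatMap_range {α : Type} (n : ℕ) (B B' : ℕ → List α) (d : ℕ → ℕ)
    (h : ∀ P, Near (d P) (B P) (B' P)) :
    Near (∑ P ∈ Finset.range n, d P) ((range n).flatMap B) ((range n).flatMap B') := by
  induction n with
  | zero => simpa using Near.refl []
  | succ n ih =>
    rw [Finset.sum_range_succ, List.range_succ, flatMap_append, flatMap_append]
    simpa using ih.append (h n)

theorem count_residue (L d : ℕ) (i : F) :
    ∑ P ∈ Finset.range (7 * L), (if (P : F) = i then d else 0) = L * d := by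
  induction L with
  | zero => simp
  | succ L ih =>
    have h7 : ((7 * L : ℕ) : F) = 0 := by
      rw [Nat.cast_mul]
      have : ((7 : ℕ) : F) = 0 := rfl
      rw [this, zero_mul]
    rw [show 7 * (L + 1) = 7 * L + 7 by ring, Finset.sum_range_add, ih]
    simp only [Nat.cast_add, h7, zero_add]
    have : ∑ x ∈ Finset.range 7, (if (x : F) = i then d else 0) = d := by
      have h1 : ∑ x ∈ Finset.range 7, (if (x : F) = i then 1 else 0) = 1 := by
        clear ih; revert i; decide
      calc ∑ x ∈ Finset.range 7, (if (x : F) = i then d else 0)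
          = d * ∑ x ∈ Finset.range 7, (if (x : F) = i then 1 else 0) := by
            rw [Finset.mul_sum]; simp
        _ = d := by rw [h1, mul_one]
    rw [this]; ring

theorem near_embed (L k d : ℕ) (i : F) (v : G k)
    (h : ∀ x (j : F), Near d (word L k x) (word L k (x + j • v))) (x : G (k + 1)) (j : F) :
    Near (L * d) (word L (k + 1) x) (word L (k + 1) (x + j • embed i v)) := by
  rw [word_succ, word_succ, ← count_residue L d i]
  apply Near.flatMap_range
  intro P
  unfold block
  apply Near.map
  rw [child_add, child_smul, child_embed]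
  split_ifs with hP
  · rw [add_right_comm]
    exact h _ j
  · simpa using Near.refl _

theorem block_shift (L k : ℕ) (x : G (k + 1)) (j : F) (P : ℕ) :
    block L k (x + j • diag k) P = block L k x (7 * j.val + P) := by
  unfold block
  have h7 : ((7 : ℕ) : F) = 0 := rfl
  have e1 : ((7 * j.val + P : ℕ) : F) = (P : F) := by
    rw [Nat.cast_add, Nat.cast_mul, h7, zero_mul, zero_add]
  have e2 : (((7 * j.val + P) / 7 : ℕ) : F) = j + ((P / 7 : ℕ) : F) := by
    rw [show (7 * j.val + P) / 7 = j.val + P / 7 by omega, Nat.cast_add, ZMod.natCast_zmod_val]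
  rw [e1, e2, child_add, child_smul, child_diag, add_smul, add_assoc]

theorem near_diag (L k : ℕ) (hL : 6 ≤ L) (x : G (k + 1)) (j : F) :
    Near (42 * (7 * L) ^ k) (word L (k + 1) x) (word L (k + 1) (x + j • diag k)) := by
  have hj := val_le_six j
  obtain ⟨r, hr⟩ : ∃ r, 7 * L = 7 * j.val + r := ⟨7 * L - 7 * j.val, by omega⟩
  refine ⟨(range r).flatMap (block L k (x + j • diag k)), ?_, ?_, ?_⟩
  · rw [word_succ, hr, List.range_add, flatMap_append, flatMap_map]
    refine Sublist.trans ?_ (sublist_append_right _ _)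
    rw [show (block L k (x + j • diag k)) = fun a => block L k x (7 * j.val + a) from
      funext (block_shift L k x j)]
  · rw [word_succ, hr, add_comm (7 * j.val) r, List.range_add, flatMap_append]
    exact sublist_append_left _ _
  · rw [length_word, length_flatMap_const _ _ _ (length_block L k _), length_range, pow_succ]
    have : 7 * L ≤ r + 42 := by omega
    nlinarith [Nat.zero_le ((7 * L) ^ k)]

theorem near_leaf (L : ℕ) (x y : G 0) : Near 1 (word L 0 x) (word L 0 y) :=
  ⟨[], nil_sublist _, nil_sublist _, by simp [word]⟩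

/-! ### The alignment lemma -/

theorem exists_chain {α : Type} (B B' : ℕ → List α) (wt : ℕ × ℕ → ℕ)
    (hwt : ∀ P P' s, s <+ B P → s <+ B' P' → s.length ≤ wt (P, P')) :
    ∀ (N n n' : ℕ), n + n' = N → ∀ s, s <+ (range n).flatMap B → s <+ (range n').flatMap B' →
      ∃ C : Finset (ℕ × ℕ), (∀ c ∈ C, c.1 < n ∧ c.2 < n') ∧
        (∀ c ∈ C, ∀ c' ∈ C, c ≤ c' ∨ c' ≤ c) ∧ s.length ≤ ∑ c ∈ C, wt c := by
  intro N
  induction N with
  | zero =>
    intro n n' hN s h1 _
    obtain rfl : n = 0 := by omega
    refine ⟨∅, by simp, by simp, ?_⟩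
    simpa using h1
  | succ N ih =>
    intro n n' hN s h1 h2
    cases n with
    | zero => exact ⟨∅, by simp, by simp, by simpa using h1⟩
    | succ n =>
    cases n' with
    | zero => exact ⟨∅, by simp, by simp, by simpa using h2⟩
    | succ n' =>
    have h1' := h1
    have h2' := h2
    rw [List.range_succ, flatMap_append] at h1' h2'
    simp only [flatMap_cons, flatMap_nil, append_nil] at h1' h2'
    obtain ⟨s1, s2, e1, a1, a2⟩ := sublist_append_iff.1 h1'
    obtain ⟨t1, t2, e2, b1, b2⟩ := sublist_append_iff.1 h2'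
    have main : ∀ (C : Finset (ℕ × ℕ)) (u v : List α), s = u ++ v → v <+ B n → v <+ B' n' →
        (∀ c ∈ C, (c.1 < n ∧ c.2 < n' + 1) ∨ (c.1 < n + 1 ∧ c.2 < n')) →
        (∀ c ∈ C, ∀ c' ∈ C, c ≤ c' ∨ c' ≤ c) → u.length ≤ ∑ c ∈ C, wt c →
        ∃ C : Finset (ℕ × ℕ), (∀ c ∈ C, c.1 < n + 1 ∧ c.2 < n' + 1) ∧
          (∀ c ∈ C, ∀ c' ∈ C, c ≤ c' ∨ c' ≤ c) ∧ s.length ≤ ∑ c ∈ C, wt c := by
      intro C u v e hv hv' hC hch hu
      have hnot : (n, n') ∉ C := by
        intro hm
        have := hC _ hm
        simp only at this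
        omega
      have hle : ∀ c ∈ C, c ≤ (n, n') := by
        intro c hc
        have := hC c hc
        exact ⟨by simp only; omega, by simp only; omega⟩
      refine ⟨insert (n, n') C, ?_, ?_, ?_⟩
      · intro c hc
        rcases Finset.mem_insert.1 hc with rfl | hc
        · simp
        · have := hC c hc
          omega
      · intro c hc c' hc'
        rcases Finset.mem_insert.1 hc with rfl | hc <;>
          rcases Finset.mem_insert.1 hc' with rfl | hc'
        · exact Or.inl le_rfl
        · exact Or.inr (hle _ hc')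
        · exact Or.inl (hle _ hc)
        · exact hch _ hc _ hc'
      · rw [Finset.sum_insert hnot, e, length_append]
        have := hwt n n' v hv hv'
        omega
    rcases append_eq_append_iff.1 (e1.symm.trans e2) with ⟨r, e3, e4⟩ | ⟨r, e3, e4⟩
    · -- t1 = s1 ++ r, s2 = r ++ t2 : peel t2
      have ht2 : t2 <+ B n := (sublist_append_right r t2).trans (e4 ▸ a2)
      have ht1 : t1 <+ (range (n + 1)).flatMap B :=
        (sublist_append_left t1 t2).trans (e2 ▸ h1)
      obtain ⟨C, c1, c2, c3⟩ := ih (n + 1) n' (by omega) t1 ht1 b1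
      exact main C t1 t2 e2 ht2 b2 (fun c hc => Or.inr (c1 c hc)) c2 c3
    · have hs2 : s2 <+ B' n' := (sublist_append_right r s2).trans (e4 ▸ b2)
      have hs1 : s1 <+ (range (n' + 1)).flatMap B' :=
        (sublist_append_left s1 s2).trans (e1 ▸ h2)
      obtain ⟨C, c1, c2, c3⟩ := ih n (n' + 1) (by omega) s1 a1 hs1
      exact main C s1 s2 e1 a2 hs2 (fun c hc => Or.inl (c1 c hc)) c2 c3

theorem card_le_of_separated (C : Finset (ℕ × ℕ)) (T R : ℕ) (hT : 0 < T)
    (hR : ∀ c ∈ C, (c.1 + c.2) / T < R)
    (hch : ∀ c ∈ C, ∀ c' ∈ C, c ≤ c' ∨ c' ≤ c)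
    (hsep : ∀ c ∈ C, ∀ c' ∈ C, c ≤ c' → c ≠ c' → c.1 + c.2 + T ≤ c'.1 + c'.2) : C.card ≤ R := by
  have key : ∀ c ∈ C, ∀ c' ∈ C, c ≤ c' → (c.1 + c.2) / T = (c'.1 + c'.2) / T → c = c' := by
    intro c hc c' hc' hle he
    by_contra hne
    have h1 := hsep c hc c' hc' hle hne
    have h2 : (c.1 + c.2 + T) / T ≤ (c'.1 + c'.2) / T := Nat.div_le_div_right h1
    rw [Nat.add_div_right _ hT] at h2
    omega
  calc C.card ≤ (Finset.range R).card := by
        apply Finset.card_le_card_of_injOn (fun c => (c.1 + c.2) / T)
        · intro c hc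
          simpa using hR c hc
        · intro c hc c' hc' he
          rcases hch c hc c' hc' with h | h
          · exact key c hc c' hc' h he
          · exact (key c' hc' c hc h he.symm).symm
    _ = R := Finset.card_range R

instance : Fact (Nat.Prime 7) := ⟨by norm_num⟩

theorem far (L : ℕ) : ∀ (k : ℕ) (x : G k) (l : F), l ≠ 0 → ∀ s,
    s <+ word L k x → s <+ word L k (x + l • w k) → s.length + (5 * L) ^ k ≤ (7 * L) ^ k := by
  intro k
  induction k with
  | zero =>
    intro x l hl s h1 h2
    simp only [word] at h1 h2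
    cases s with
    | nil => simp
    | cons a s =>
      exfalso
      have a1 : a ∈ [[x Fin.elim0]] := h1.subset (by simp)
      have a2 : a ∈ [[(x + l • w 0) Fin.elim0]] := h2.subset (by simp)
      simp only [mem_singleton] at a1 a2
      rw [a1] at a2
      simp [w, hl] at a2
  | succ k ih =>
    intro x l hl s h1 h2
    classical
    set m := (7 * L) ^ k with hm
    set δ := (5 * L) ^ k with hδ
    have hδm : δ ≤ m := Nat.pow_le_pow_left (by omega) k
    let A : ℕ × ℕ → Prop := fun c => (c.1 : F) = (c.2 : F)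
    let Bd : ℕ × ℕ → Prop := fun c =>
      (c.1 : F) = (c.2 : F) ∧ l * (c.1 : F) + ((c.2 / 7 : ℕ) : F) = ((c.1 / 7 : ℕ) : F)
    let wt : ℕ × ℕ → ℕ := fun c => (if A c then m - δ else 0) + (if Bd c then δ else 0)
    have hwt : ∀ P P' t, t <+ block L k x P → t <+ block L k (x + l • w (k + 1)) P' →
        t.length ≤ wt (P, P') := by
      intro P P' t a1 a2
      by_cases hA : (P : F) = (P' : F)
      · unfold block at a1 a2
        rw [← hA] at a2
        obtain ⟨s1, b1, e1⟩ := sublist_map_iff.1 a1
        obtain ⟨s2, b2, e2⟩ := sublist_map_iff.1 a2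
        have e3 : s1 = s2 :=
          (List.map_injective_iff.2 (fun _ _ h => (List.cons.inj h).2)) (e1.symm.trans e2)
        have e4 : t.length = s1.length := by rw [e1, length_map]
        rw [e4]
        subst e3
        by_cases hB : l * (P : F) + ((P' / 7 : ℕ) : F) = ((P / 7 : ℕ) : F)
        · have := b1.length_le
          rw [length_word] at this
          simp only [wt, A, Bd, hA, if_true, true_and]
          rw [← hA, if_pos hB]
          omega
        · have e5 : child (P : F) (x + l • w (k + 1)) + ((P' / 7 : ℕ) : F) • w k =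
              (child (P : F) x + ((P / 7 : ℕ) : F) • w k) +
                (l * (P : F) + ((P' / 7 : ℕ) : F) - ((P / 7 : ℕ) : F)) • w k := by
            rw [child_add, child_smul, child_w, smul_smul, sub_smul, add_smul]
            abel
          rw [e5] at b2
          have := ih _ _ (sub_ne_zero.2 hB) s1 b1 b2
          simp only [wt, A, hA, if_true]
          omega
      · cases t with
        | nil => simp
        | cons a t =>
          exfalso
          have c1 : a ∈ block L k x P := a1.subset (by simp)
          have c2 : a ∈ block L k (x + l • w (k + 1)) P' := a2.subset (by simp)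
          simp only [block, mem_map] at c1 c2
          obtain ⟨b, _, rfl⟩ := c1
          obtain ⟨b', _, e⟩ := c2
          exact hA (List.cons.inj e).1.symm
    rw [word_succ] at h1 h2
    obtain ⟨C, c1, c2, c3⟩ := exists_chain _ _ wt hwt _ _ _ rfl s h1 h2
    have hA : (C.filter A).card ≤ 7 * L := by
      apply card_le_of_separated _ 2 _ (by omega)
      · intro c hc
        have := c1 c (Finset.mem_filter.1 hc).1
        omega
      · intro c hc c' hc'
        exact c2 c (Finset.mem_filter.1 hc).1 c' (Finset.mem_filter.1 hc').1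
      · intro c hc c' hc' hle hne
        have d1 := (ZMod.natCast_eq_natCast_iff' _ _ _).1 (Finset.mem_filter.1 hc).2
        have d2 := (ZMod.natCast_eq_natCast_iff' _ _ _).1 (Finset.mem_filter.1 hc').2
        have d3 : c.1 ≤ c'.1 := hle.1
        have d4 : c.2 ≤ c'.2 := hle.2
        have d5 : ¬ (c.1 = c'.1 ∧ c.2 = c'.2) := fun h => hne (Prod.ext h.1 h.2)
        omega
    have hB : (C.filter Bd).card ≤ 2 * L := by
      apply card_le_of_separated _ 7 _ (by omega)
      · intro c hc
        have := c1 c (Finset.mem_filter.1 hc).1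
        omega
      · intro c hc c' hc'
        exact c2 c (Finset.mem_filter.1 hc).1 c' (Finset.mem_filter.1 hc').1
      · intro c hc c' hc' hle hne
        obtain ⟨d1, f1⟩ := (Finset.mem_filter.1 hc).2
        obtain ⟨d2, f2⟩ := (Finset.mem_filter.1 hc').2
        have d1 := (ZMod.natCast_eq_natCast_iff' _ _ _).1 d1
        have d2 := (ZMod.natCast_eq_natCast_iff' _ _ _).1 d2
        have d3 : c.1 ≤ c'.1 := hle.1
        have d4 : c.2 ≤ c'.2 := hle.2
        have d5 : ¬ (c.1 = c'.1 ∧ c.2 = c'.2) := fun h => hne (Prod.ext h.1 h.2)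
        by_contra hlt
        have g1 : c'.1 / 7 + c.2 / 7 = c.1 / 7 + c'.2 / 7 := by omega
        have g2 : ((c'.1 / 7 : ℕ) : F) + ((c.2 / 7 : ℕ) : F) =
            ((c.1 / 7 : ℕ) : F) + ((c'.2 / 7 : ℕ) : F) := by
          rw [← Nat.cast_add, ← Nat.cast_add, g1]
        have g3 : l * (c.1 : F) = l * (c'.1 : F) := by
          linear_combination f1 - f2 - g2
        have g4 := (ZMod.natCast_eq_natCast_iff' _ _ _).1 (mul_left_cancel₀ hl g3)
        omega
    have hsum : ∑ c ∈ C, wt c = (C.filter A).card * (m - δ) + (C.filter Bd).card * δ := by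
      simp only [wt, Finset.sum_add_distrib]
      rw [← Finset.sum_filter, ← Finset.sum_filter]
      simp
    rw [hsum] at c3
    have i1 : (C.filter A).card * (m - δ) ≤ 7 * L * (m - δ) := Nat.mul_le_mul_right _ hA
    have i2 : (C.filter Bd).card * δ ≤ 2 * L * δ := Nat.mul_le_mul_right _ hB
    obtain ⟨e, he⟩ : ∃ e, m = δ + e := ⟨m - δ, by omega⟩
    have i3 : m - δ = e := by omega
    rw [pow_succ, pow_succ, ← hm, ← hδ]
    rw [i3] at i1 c3
    rw [he]
    nlinarith

end Vale.Agent.P238
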