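import Vale.Agent.P238.Main

/-! The cut cone, random partitions and the hashing step. -/

namespace Vale.Agent.P238.Up

open Finset

/-- the cut cone -/
def Cone (X : Type) : AddSubmonoid (X → X → ℝ) :=
  AddSubmonoid.closure {d | ∃ (a : ℝ) (c : X → Bool), 0 ≤ a ∧
    d = fun x y => if c x = c y then 0 else a}

variable {X Y : Type}

theorem cut_mem {a : ℝ} (ha : 0 ≤ a) (c : X → Bool) :
    (fun x y => if c x = c y then 0 else a) ∈ Cone X := AddSubmonoid.subset_closure ⟨a, c, ha, rfl⟩

theorem Cone.map {d : X → X → ℝ} (h : d ∈ Cone X) (g : Y → X) {t : ℝ} (ht : 0 ≤ t) :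
    (fun x y => t * d (g x) (g y)) ∈ Cone Y := by
  induction h using AddSubmonoid.closure_induction with
  | mem d hd =>
    obtain ⟨a, c, ha, rfl⟩ := hd
    simpa using cut_mem (mul_nonneg ht ha) (fun y => c (g y))
  | zero => convert (Cone Y).zero_mem using 3; simp
  | add d d' _ _ h h' => convert (Cone Y).add_mem h h' using 3; simp [mul_add]

theorem Cone.sum {ι : Type} (s : Finset ι) {d : ι → X → X → ℝ} (h : ∀ i ∈ s, d i ∈ Cone X) :
    (fun x y => ∑ i ∈ s, d i x y) ∈ Cone X := by
  have := (Cone X).sum_mem h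
  convert this using 3
  simp [Finset.sum_apply]

theorem Cone.repr {d : X → X → ℝ} (h : d ∈ Cone X) :
    ∃ (n : ℕ) (g : X → ℕ → ℝ), ∀ x y, d x y = ∑ i ∈ range n, |g x i - g y i| := by
  induction h using AddSubmonoid.closure_induction with
  | mem d hd =>
    obtain ⟨a, c, ha, rfl⟩ := hd
    refine ⟨1, fun x _ => if c x then a else 0, fun x y => ?_⟩
    cases h1 : c x <;> cases h2 : c y <;> simp [h1, h2, abs_of_nonneg ha]
  | zero => exact ⟨0, fun _ _ => 0, by simp⟩
  | add d d' _ _ h h' =>
    obtain ⟨n, g, hg⟩ := h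
    obtain ⟨n', g', hg'⟩ := h'
    refine ⟨n + n', fun x i => if i < n then g x i else g' x (i - n), fun x y => ?_⟩
    rw [sum_range_add, Pi.add_apply, Pi.add_apply, hg, hg']
    congr 1
    · exact sum_congr rfl fun i hi => by simp [mem_range.1 hi]
    · exact sum_congr rfl fun i _ => by simp

theorem Cone.embed {d : X → X → ℝ} (h : d ∈ Cone X) :
    ∃ f : X → Ell1, ∀ x y, ‖f x - f y‖ = d x y := by
  obtain ⟨n, g, hg⟩ := Cone.repr h
  refine ⟨fun x => ∑ i ∈ range n, lp.single 1 i (g x i), fun x y => ?_⟩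
  have := lp.norm_sum_single (E := fun _ : ℕ => ℝ) (p := 1) (by simp)
    (fun i => g x i - g y i) (range n)
  simp only [ENNReal.toReal_one, Real.rpow_one, Real.norm_eq_abs] at this
  rw [hg, ← this, ← sum_sub_distrib]
  simp only [lp.single_sub]

theorem Cone.nonneg {d : X → X → ℝ} (h : d ∈ Cone X) (x y : X) : 0 ≤ d x y :=
  let ⟨_, hf⟩ := Cone.embed h; hf x y ▸ norm_nonneg _

theorem Cone.self {d : X → X → ℝ} (h : d ∈ Cone X) (x : X) : d x x = 0 :=
  let ⟨_, hf⟩ := Cone.embed h; by rw [← hf]; simp

theorem Cone.symm {d : X → X → ℝ} (h : d ∈ Cone X) (x y : X) : d x y = d y x :=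
  let ⟨_, hf⟩ := Cone.embed h; by rw [← hf, ← hf, norm_sub_rev]

theorem Cone.tri {d : X → X → ℝ} (h : d ∈ Cone X) (x y z : X) : d x z ≤ d x y + d y z :=
  let ⟨_, hf⟩ := Cone.embed h; by rw [← hf, ← hf, ← hf]; exact norm_sub_le_norm_sub_add_norm_sub _ _ _

theorem abs_mem (g : X → ℕ) (s : ℕ) (hg : ∀ x, g x ≤ s) :
    (fun x y => |(g x : ℝ) - g y|) ∈ Cone X := by
  have key : ∀ a b : ℕ, a ≤ b → b ≤ s →
      ∑ k ∈ range s, (if decide (k < a) = decide (k < b) then (0 : ℝ) else 1) = (b : ℝ) - a := by
    intro a b h1 h2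
    rw [← Nat.cast_sub h1, ← Nat.card_Ico, card_eq_sum_ones, Nat.cast_sum,
      ← sum_filter_of_ne (p := fun k => k ∈ Ico a b)]
    · rw [filter_mem_eq_inter, inter_eq_right.2 fun k hk => mem_range.2 (by
        have := mem_Ico.1 hk; omega)]
      refine sum_congr rfl fun k hk => ?_
      have := mem_Ico.1 hk
      rw [if_neg (by simp; omega), Nat.cast_one]
    · intro k _ hk
      by_contra hc
      rw [mem_Ico] at hc
      exact hk (if_pos (by simp; omega))
  have := Cone.sum (range s) (X := X)
    (d := fun k x y => if decide (k < g x) = decide (k < g y) then 0 else 1)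
    fun k _ => cut_mem zero_le_one fun x => decide (k < g x)
  convert this using 3 with x y
  rcases le_total (g x) (g y) with h | h
  · rw [key _ _ h (hg y), abs_sub_comm, abs_of_nonneg (sub_nonneg.2 (by exact_mod_cast h))]
  · simp only [eq_comm (a := decide (_ < g x))]
    rw [key _ _ h (hg x), abs_of_nonneg (sub_nonneg.2 (by exact_mod_cast h))]

theorem exists_hash {d : X → X → ℝ} (h : d ∈ Cone X) :
    ∃ (Ω V : Type) (_ : Fintype Ω) (_ : Fintype V) (_ : DecidableEq V) (p : Ω → ℝ)
      (φ : Ω → X → V), (∀ ω, 0 ≤ p ω) ∧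
      ∀ x y, ∑ ω, p ω * (if φ ω x = φ ω y then 1 else 0) = Real.exp (-d x y) := by
  induction h using AddSubmonoid.closure_induction with
  | mem d hd =>
    obtain ⟨a, c, ha, rfl⟩ := hd
    refine ⟨Bool, Bool, inferInstance, inferInstance, inferInstance,
      fun ω => if ω then 1 - Real.exp (-a) else Real.exp (-a), fun ω x => ω && c x, fun ω => ?_,
      fun x y => ?_⟩
    · cases ω
      · exact (Real.exp_pos _).le
      · simpa using ha
    · by_cases e : c x = c y <;> simp [e]
  | zero => exact ⟨Unit, Unit, inferInstance, inferInstance, inferInstance, fun _ => 1,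
      fun _ _ => (), by simp, by simp⟩
  | add d d' _ _ h h' =>
    obtain ⟨Ω, V, _, _, _, p, φ, h1, h2⟩ := h
    obtain ⟨Ω', V', _, _, _, p', φ', h1', h2'⟩ := h'
    refine ⟨Ω × Ω', V × V', inferInstance, inferInstance, inferInstance, fun ω => p ω.1 * p' ω.2,
      fun ω x => (φ ω.1 x, φ' ω.2 x), fun ω => mul_nonneg (h1 _) (h1' _), fun x y => ?_⟩
    rw [Pi.add_apply, Pi.add_apply, neg_add, Real.exp_add, ← h2, ← h2', sum_mul_sum,
      Fintype.sum_prod_type]
    refine sum_congr rfl fun ω _ => sum_congr rfl fun ω' _ => ?_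
    by_cases a : φ ω x = φ ω y <;> by_cases b : φ' ω' x = φ' ω' y <;> simp [a, b]

theorem hash_step {d : X → X → ℝ} (h : d ∈ Cone X) (s : ℕ) (U : Y → ℕ → X) :
    ∃ ρ ∈ Cone Y, (∀ x y, ρ x y ≤ 2 * ∑ a ∈ range s, d (U x a) (U y a)) ∧
      (∀ x y, (∀ a, a + 1 < s → U x (a + 1) = U y a) → ρ x y ≤ 2) ∧
      ∀ x y (T : ℝ), (∀ a < s, ∀ a' < s, T ≤ d (U x a) (U y a')) →
        s * (1 - s * Real.exp (-T)) ≤ ρ x y := by
  obtain ⟨Ω, V, _, _, _, p, φ, h1, h2⟩ := exists_hash h
  let ind : V → V → ℝ := fun u v => if u = v then 1 else 0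
  have ind1 : ∀ u, ∑ v, |ind u v| = 1 := fun u => by
    simp only [ind, apply_ite abs, abs_one, abs_zero]; simp
  let cnt : Ω → V → Y → ℕ := fun ω v x => ∑ a ∈ range s, if φ ω (U x a) = v then 1 else 0
  have cnt1 : ∀ ω v x, (cnt ω v x : ℝ) = ∑ a ∈ range s, ind (φ ω (U x a)) v := fun ω v x => by
    simp [cnt, ind]
  have p1 : ∀ x : X, ∑ ω, p ω = 1 := fun x => by simpa [Cone.self h] using h2 x x
  refine ⟨fun x y => ∑ ω, p ω * ∑ v, |(cnt ω v x : ℝ) - cnt ω v y|,
    Cone.sum _ fun ω _ => Cone.map (Cone.sum univ fun v _ => abs_mem (cnt ω v) s fun x =>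
      (sum_le_card_nsmul _ _ 1 fun a _ => by split_ifs <;> simp).trans (by simp)) id (h1 ω),
    fun x y => ?_, fun x y e => ?_, fun x y T hT => ?_⟩
  · calc _ ≤ ∑ ω, p ω * ∑ a ∈ range s, 2 * (1 - ind (φ ω (U x a)) (φ ω (U y a))) := by
          refine sum_le_sum fun ω _ => mul_le_mul_of_nonneg_left ?_ (h1 ω)
          simp only [cnt1, ← sum_sub_distrib]
          refine (sum_le_sum fun v _ => abs_sum_le_sum_abs _ _).trans ?_
          rw [sum_comm]
          refine sum_le_sum fun a _ => ?_
          by_cases e : φ ω (U x a) = φ ω (U y a)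
          · simp [e, ind]
          · refine (sum_le_sum fun v _ => abs_sub _ _).trans ?_
            rw [sum_add_distrib, ind1, ind1]
            simp [ind, e]
            norm_num
      _ = ∑ a ∈ range s, 2 * (1 - Real.exp (-d (U x a) (U y a))) := by
          simp only [mul_sum]
          rw [sum_comm]
          refine sum_congr rfl fun a _ => ?_
          have : ∀ ω, p ω * (2 * (1 - ind (φ ω (U x a)) (φ ω (U y a)))) =
              2 * (p ω - p ω * ind (φ ω (U x a)) (φ ω (U y a))) := fun ω => by ring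
          simp only [this]
          rw [← mul_sum, sum_sub_distrib, p1 (U x a), h2]
      _ ≤ _ := by
          rw [mul_sum]
          refine sum_le_sum fun a _ => ?_
          have := Real.add_one_le_exp (-d (U x a) (U y a))
          linarith
  · calc _ ≤ ∑ ω, p ω * 2 := by
          refine sum_le_sum fun ω _ => mul_le_mul_of_nonneg_left ?_ (h1 ω)
          cases s with
          | zero => simp [cnt]
          | succ s =>
            have : ∀ v, (cnt ω v x : ℝ) - cnt ω v y =
                ind (φ ω (U x 0)) v - ind (φ ω (U y s)) v := fun v => by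
              rw [cnt1, cnt1, sum_range_succ', sum_range_succ,
                sum_congr rfl fun a ha => by rw [e a (by have := mem_range.1 ha; omega)]]
              ring
            simp only [this]
            refine (sum_le_sum fun v _ => abs_sub _ _).trans ?_
            rw [sum_add_distrib, ind1, ind1]
            norm_num
      _ = 2 := by rw [← sum_mul, p1 (U x 0), one_mul]
  · calc _ = ∑ a ∈ range s, (1 - ∑ a' ∈ range s, Real.exp (-T)) := by simp [mul_sub]
      _ ≤ ∑ a ∈ range s, (1 - ∑ a' ∈ range s, Real.exp (-d (U x a) (U y a'))) := by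
          refine sum_le_sum fun a ha => sub_le_sub_left (sum_le_sum fun a' ha' => ?_) _
          exact Real.exp_le_exp.2 (neg_le_neg (hT a (mem_range.1 ha) a' (mem_range.1 ha')))
      _ = ∑ ω, p ω * ∑ a ∈ range s,
            (1 - ∑ a' ∈ range s, ind (φ ω (U x a)) (φ ω (U y a'))) := by
          simp only [mul_sum]
          rw [sum_comm]
          refine sum_congr rfl fun a _ => ?_
          simp only [mul_sub, mul_one, sum_sub_distrib, p1 (U x a), mul_sum, ← h2]
          rw [sum_comm]
      _ ≤ _ := by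
          refine sum_le_sum fun ω _ => mul_le_mul_of_nonneg_left ?_ (h1 ω)
          calc _ ≤ ∑ a ∈ range s, ∑ v, ind (φ ω (U x a)) v * if cnt ω v y = 0 then 1 else 0 := by
                refine sum_le_sum fun a _ => ?_
                have e : ∑ a' ∈ range s, ind (φ ω (U x a)) (φ ω (U y a')) =
                    cnt ω (φ ω (U x a)) y := by
                  rw [cnt1]; exact sum_congr rfl fun a' _ => by simp only [ind, eq_comm]
                rw [e]
                simp only [ind, ite_mul, one_mul, zero_mul, sum_ite_eq, mem_univ, if_true]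
                split_ifs with c
                · simp [c]
                · have : (1 : ℝ) ≤ cnt ω (φ ω (U x a)) y := by exact_mod_cast Nat.pos_of_ne_zero c
                  linarith
            _ ≤ _ := by
                rw [sum_comm]
                refine sum_le_sum fun v _ => ?_
                rw [← sum_mul, ← cnt1]
                split_ifs with c
                · simp [c]
                · simp

end Vale.Agent.P238.Up
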