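import Vale.Agent.P238.UpStr

/-! The upper bound of Ostrovsky and Rabani. -/

namespace Vale.Agent.P238.Up

theorem c1_le {N n : ℕ} {D : ℝ} (hD : 0 ≤ D) (h : Good N D) (hn : n ≤ N) :
    c1 (binED n) ≤ D * 2 := by
  obtain ⟨d, hd, h1⟩ := h n hn
  obtain ⟨g, hg⟩ := Cone.embed hd
  have up : ∀ u v : Fin n → Bool, ‖g (List.ofFn u) - g (List.ofFn v)‖ ≤ D * binED n u v :=
    fun u v => by
      rw [hg]
      exact (h1 _ _ (by simp) (by simp)).1 _ (steps_ED _ _).exists_sublist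
  have lo : ∀ u v : Fin n → Bool, binED n u v ≤ 2 * ‖g (List.ofFn u) - g (List.ofFn v)‖ :=
    fun u v => by
      obtain ⟨k, ⟨s, a1, a2, a3⟩, a4⟩ := (h1 (List.ofFn u) (List.ofFn v) (by simp) (by simp)).2
      have a5 := ED_le_of_sublist a1 a2
      simp only [List.length_ofFn] at a3 a5
      have a6 : ED (List.ofFn u) (List.ofFn v) ≤ 2 * k := by omega
      have a7 : binED n u v ≤ 2 * k := by unfold binED; exact_mod_cast a6
      rw [hg]
      linarith
  have pos : ∀ u v : Fin n → Bool, u ≠ v → 0 < ‖g (List.ofFn u) - g (List.ofFn v)‖ :=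
    fun u v huv => by have := binED_pos huv; have := lo u v; linarith
  have inj : Function.Injective fun u : Fin n → Bool => g (List.ofFn u) := fun u v e => by
    by_contra huv
    have := pos u v huv
    simp only at e
    simp [e] at this
  refine ciInf_le_of_le ⟨0, ?_⟩ ⟨_, inj⟩ ?_
  · rintro _ ⟨f, rfl⟩
    obtain ⟨A, B, hA, hB, e, -⟩ := exists_constants f.1 f.2
    exact (mul_nonneg hA hB).trans e.ge
  · refine mul_le_mul (Real.iSup_le (fun p => ?_) hD) (Real.iSup_le (fun p => ?_) two_pos.le)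
      (Real.iSup_nonneg fun p => div_nonneg (binED_pos p.2).le (norm_nonneg _)) hD
    · exact (div_le_iff₀ (binED_pos p.2)).2 (up _ _)
    · exact (div_le_iff₀ (pos _ _ p.2)).2 (lo _ _)

theorem upper_bound (n : ℕ) (hn : 2 ^ 16 ≤ n) :
    c1 (binED n) ≤ Real.exp (30 * √(Real.log n * Real.log (Real.log n))) := by
  obtain ⟨J, hJ⟩ : ∃ J, J = Nat.log 2 n + 1 := ⟨_, rfl⟩
  obtain ⟨l, hl⟩ : ∃ l, l = Nat.log 2 J + 1 := ⟨_, rfl⟩
  obtain ⟨k, hk⟩ : ∃ k, k = Nat.sqrt (J / l) := ⟨_, rfl⟩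
  have J1 : n < 2 ^ J := hJ ▸ Nat.lt_pow_succ_log_self (by norm_num) n
  have J2 : 16 ≤ Nat.log 2 n := Nat.le_log_of_pow_le (by norm_num) hn
  have l1 : J < 2 ^ l := hl ▸ Nat.lt_pow_succ_log_self (by norm_num) J
  have l2 : 4 ≤ Nat.log 2 J := Nat.le_log_of_pow_le (by norm_num) (by omega)
  have l3 : l ≤ J := by have := Nat.log_lt_self 2 (show J ≠ 0 by omega); omega
  have k1 : l * (k * k) ≤ J :=
    (Nat.mul_le_mul_left l (hk ▸ Nat.sqrt_le (J / l))).trans (Nat.mul_div_le J l)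
  have k2 : J < l * (k + 1) * (k + 1) := by
    have a := Nat.mul_le_mul_left l (Nat.succ_le_of_lt (Nat.lt_succ_sqrt (J / l)))
    have b := Nat.lt_mul_div_succ J (show 0 < l by omega)
    rw [← hk] at a
    rw [mul_assoc]
    exact b.trans_le a
  have k3 : l * (k + 1) * (k + 1) ≤ 4 * J := by nlinarith [sq_nonneg ((k : ℤ) - 1)]
  obtain ⟨D, h1, h2, h3⟩ := good_pow (m := 2 ^ (l * (k + 1))) (J := l * (k + 1) * (k + 1))
    (by positivity) (k + 1) fun i hi => by
      rw [← pow_mul]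
      exact Nat.pow_lt_pow_right (by norm_num) 
        (Nat.mul_lt_mul_of_pos_left hi (Nat.mul_pos (by omega) (by omega)))
  refine (c1_le h1 h3 (by
    rw [← pow_mul]; exact J1.le.trans (Nat.pow_le_pow_right (by norm_num) k2.le))).trans ?_
  have a1 : 16 * (l * (k + 1) * (k + 1)) * (l * (k + 1) * (k + 1) + 2) + 1 ≤ 2 ^ (4 * l) := by
    have b1 : 2 ^ (4 * l) = 2 ^ l * 2 ^ l * (2 ^ l * 2 ^ l) := by ring
    have b2 : 2 ^ 5 ≤ 2 ^ l := Nat.pow_le_pow_right (by norm_num) (by omega)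
    have b3 : 16 * (l * (k + 1) * (k + 1)) * (l * (k + 1) * (k + 1) + 2) ≤ 16 * (4 * J) * (6 * J) :=
      Nat.mul_le_mul (by omega) (by omega)
    have b4 : J * J * (32 * 32) ≤ 2 ^ l * 2 ^ l * (2 ^ l * 2 ^ l) :=
      Nat.mul_le_mul (Nat.mul_le_mul l1.le l1.le) (Nat.mul_le_mul b2 b2)
    nlinarith
  have a2 : (16 * (l * (k + 1) * (k + 1) : ℕ) * ((l * (k + 1) * (k + 1) : ℕ) + 2) + 1 : ℝ) ≤
      2 ^ (4 * l) := by exact_mod_cast a1
  have t1 : (1 : ℝ) ≤ 2 ^ (l * (k + 1)) := one_le_pow₀ (by norm_num)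
  have a3 : D * 2 ≤ 2 ^ (6 * (l * (k + 1))) := by
    have b1 := pow_le_pow_left₀ (by positivity) a2 (k + 1)
    have b2 : (4 : ℝ) ≤ 2 ^ (l * (k + 1)) := by
      have : 2 ^ 2 ≤ 2 ^ (l * (k + 1)) := Nat.pow_le_pow_right (by norm_num) (by nlinarith)
      exact_mod_cast this
    push_cast at h2 b1
    have b3 := h2.trans (mul_le_mul_of_nonneg_right b1 (by positivity))
    have b4 : (2 : ℝ) ^ (6 * (l * (k + 1))) =
        (2 ^ (4 * l)) ^ (k + 1) * (2 ^ (l * (k + 1)) * 2 ^ (l * (k + 1))) := by ring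
    have b5 : (0 : ℝ) < (2 ^ (4 * l)) ^ (k + 1) := by positivity
    rw [b4]
    generalize (2 : ℝ) ^ (l * (k + 1)) = t at *
    generalize ((2 : ℝ) ^ (4 * l)) ^ (k + 1) = u at *
    have b6 : u * (2 * (1 + t)) ≤ u * (t * t) := mul_le_mul_of_nonneg_left (by nlinarith) b5.le
    nlinarith
  refine a3.trans ?_
  have g2 := Real.log_two_lt_d9
  have g2' := Real.log_two_gt_d9
  have lg : ∀ a : ℕ, a ≠ 0 → (Nat.log 2 a : ℝ) * Real.log 2 ≤ Real.log a := fun a ha => by
    rw [← Real.log_pow]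
    exact Real.log_le_log (by positivity) (by exact_mod_cast Nat.pow_log_le_self 2 ha)
  have b1 := lg n (by omega)
  have b2 := lg J (by omega)
  have b3 : (16 : ℝ) ≤ Nat.log 2 n := by exact_mod_cast J2
  have b4 : (J : ℝ) = Nat.log 2 n + 1 := by rw [hJ]; push_cast; rfl
  have b5 : (l : ℝ) = Nat.log 2 J + 1 := by rw [hl]; push_cast; rfl
  have b6 : (J : ℝ) ≤ 2 * Real.log n := by nlinarith
  have b7 : 8 ≤ Real.log n := by nlinarith
  have b8 : Real.log J ≤ Real.log 2 + Real.log (Real.log n) := by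
    rw [← Real.log_mul (by norm_num) (by linarith)]
    exact Real.log_le_log (by linarith) b6
  have b9 : 3 * Real.log 2 ≤ Real.log (Real.log n) := by
    have := Real.log_le_log (by norm_num) b7
    rwa [show (8 : ℝ) = 2 ^ 3 by norm_num, Real.log_pow] at this
  have b10 : (l : ℝ) ≤ 3 * Real.log (Real.log n) := by nlinarith
  have c1 : ((l * (k + 1) : ℕ) : ℝ) ≤ 5 * √(Real.log n * Real.log (Real.log n)) := by
    have d1 : (l * (k + 1)) ^ 2 ≤ 4 * (J * l) := by nlinarith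
    have d2 : ((l * (k + 1) : ℕ) : ℝ) ^ 2 ≤ 4 * (J * l) := by exact_mod_cast d1
    have d3 : (J : ℝ) * l ≤ 2 * Real.log n * (3 * Real.log (Real.log n)) :=
      mul_le_mul b6 b10 (by positivity) (by linarith)
    have d4 : 0 ≤ Real.log n * Real.log (Real.log n) := mul_nonneg (by linarith) (by linarith)
    refine le_of_sq_le_sq ?_ (by positivity)
    rw [mul_pow, Real.sq_sqrt d4]
    linarith
  rw [← Real.log_le_iff_le_exp (by positivity), Real.log_pow, Nat.cast_mul]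
  have := Nat.cast_nonneg (α := ℝ) (l * (k + 1))
  push_cast at *
  nlinarith

end Vale.Agent.P238.Up
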