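import Vale.Agent.P238.UpCone

/-! The recursive embedding of Ostrovsky and Rabani. -/

namespace Vale.Agent.P238.Up

open List

variable {α : Type}

/-- a window -/
def win (x : List α) (p w : ℕ) : List α := (x.drop p).take w

theorem win_sublist (x : List α) (p w : ℕ) : win x p w <+ x :=
  (take_sublist _ _).trans (drop_sublist _ _)

theorem length_win (x : List α) (p w : ℕ) : (win x p w).length = min w (x.length - p) := by
  simp [win]

theorem win_get (x : List α) (p w j : ℕ) : (win x p w)[j]? = if j < w then x[p + j]? else none := by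
  simp [win, getElem?_take]

theorem near_split {k : ℕ} {x y : List α} (h : Near k x y) (hl : x.length = y.length) (p : ℕ) :
    Near k (x.take p) (y.take p) ∧ Near k (x.drop p) (y.drop p) := by
  obtain ⟨s, h1, h2, h3⟩ := h
  rw [← take_append_drop p x] at h1
  rw [← take_append_drop p y] at h2
  obtain ⟨s1, s2, e1, a1, a2⟩ := sublist_append_iff.1 h1
  obtain ⟨t1, t2, e2, b1, b2⟩ := sublist_append_iff.1 h2
  have l1 := a1.length_le
  have l2 := a2.length_le
  have l3 := b1.length_le
  have l4 := b2.length_le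
  have l5 := congrArg length e1
  have l6 := congrArg length e2
  simp only [length_take, length_drop, length_append] at l1 l2 l3 l4 l5 l6
  rcases append_eq_append_iff.1 (e1.symm.trans e2) with ⟨r, e3, e4⟩ | ⟨r, e3, e4⟩
  · exact ⟨⟨s1, a1, (sublist_append_left s1 r).trans (e3 ▸ b1), by rw [length_take]; omega⟩,
      t2, (sublist_append_right r t2).trans (e4 ▸ a2), b2, by rw [length_drop]; omega⟩
  · exact ⟨⟨t1, (sublist_append_left t1 r).trans (e3 ▸ a1), b1, by rw [length_take]; omega⟩,
      s2, a2, (sublist_append_right r s2).trans (e4 ▸ b2), by rw [length_drop]; omega⟩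

theorem near_win {k : ℕ} {x y : List α} (h : Near k x y) (hl : x.length = y.length) (p w : ℕ) :
    Near k (win x p w) (win y p w) :=
  (near_split (near_split h hl p).2 (by simp [hl]) w).1

theorem exists_del {s x : List α} (h : s <+ x) (hl : s.length < x.length) :
    ∃ u a w, x = u ++ a :: w ∧ s <+ u ++ w := by
  induction h with
  | slnil => simp at hl
  | @cons s x a h _ => exact ⟨[], a, x, rfl, h⟩
  | @cons_cons s x a h ih =>
    obtain ⟨u, b, w, e, h'⟩ := ih (by simpa using hl)
    exact ⟨a :: u, b, w, by rw [e]; rfl, h'.cons_cons a⟩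

theorem exists_ins {s x : List α} (h : s <+ x) (hl : s.length < x.length) :
    ∃ u a w, s = u ++ w ∧ u ++ a :: w <+ x := by
  induction h with
  | slnil => simp at hl
  | @cons s x a h _ => exact ⟨[], a, s, rfl, h.cons_cons a⟩
  | @cons_cons s x a h ih =>
    obtain ⟨u, b, w, e, h'⟩ := ih (by simpa using hl)
    exact ⟨a :: u, b, w, by rw [e]; rfl, h'.cons_cons a⟩

/-- one deletion followed by one insertion further right -/
def El (x y : List α) : Prop :=
  Near 1 x y ∧ ∃ a b, (∀ j, j < a ∨ b < j → x[j]? = y[j]?) ∧ a ≤ b ∧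
    ∀ j, a ≤ j → j < b → x[j + 1]? = y[j]?

theorem el_mk (u v w : List α) (a b : α) : El (u ++ a :: (v ++ w)) (u ++ v ++ b :: w) := by
  refine ⟨⟨u ++ (v ++ w), (Sublist.refl u).append (sublist_cons_self _ _), ?_, by simp; omega⟩,
    u.length, u.length + v.length, fun j hj => ?_, by omega, fun j h1 h2 => ?_⟩
  · rw [append_assoc]
    exact (Sublist.refl u).append ((Sublist.refl v).append (sublist_cons_self _ _))
  · simp only [getElem?_append, length_append, getElem?_cons]
    split_ifs <;> first | rfl | omega | (congr 1; omega)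
  · simp only [getElem?_append, length_append, getElem?_cons]
    split_ifs <;> first | rfl | omega | (congr 1; omega)

theorem chain {d : List α → List α → ℝ} (hd : d ∈ Cone (List α)) {D : ℝ} (hD : 0 ≤ D) {l : ℕ}
    (h : ∀ x y, x.length = l → y.length = l → El x y → d x y ≤ D) :
    ∀ (k : ℕ) (x y : List α), x.length = l → y.length = l → Near k x y → d x y ≤ D * k := by
  intro k
  induction k with
  | zero =>
    rintro x y hx hy ⟨s, h1, h2, h3⟩
    rw [← h1.eq_of_length_le h3, h2.eq_of_length_le (by omega), Cone.self hd]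
    simp
  | succ k ih =>
    rintro x y hx hy ⟨s, h1, h2, h3⟩
    rcases Nat.lt_or_ge s.length x.length with c | c
    · obtain ⟨u, a, w, e, h4⟩ := exists_del h1 c
      obtain ⟨s1, b, s2, rfl, h5⟩ := exists_ins h2 (by omega)
      obtain ⟨r1, r2, e', h6, h7⟩ := append_sublist_iff.1 h4
      have l1 := congrArg length e
      have l2 := congrArg length e'
      simp only [length_append, length_cons] at l1 l2 h3
      have hz : (r1 ++ b :: r2).length = l := by simp only [length_append, length_cons]; omega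
      have a1 := ih (r1 ++ b :: r2) y hz hy ⟨_, h6.append (h7.cons_cons b), h5, by
        simp only [length_append, length_cons]; omega⟩
      have a2 : d x (r1 ++ b :: r2) ≤ D := by
        rcases append_eq_append_iff.1 e' with ⟨v, e3, e4⟩ | ⟨v, e3, e4⟩
        · refine h _ _ hx hz ?_
          rw [e, e3, e4]
          exact el_mk u v r2 a b
        · rw [Cone.symm hd]
          refine h _ _ hz hx ?_
          rw [e, e3, e4]
          exact el_mk r1 v w b a
      have := Cone.tri hd x (r1 ++ b :: r2) y
      push_cast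
      linarith
    · rw [← h1.eq_of_length_le c, h2.eq_of_length_le (by omega), Cone.self hd]
      positivity

/-- embeddings of all lengths up to `N` -/
def Good (N : ℕ) (D : ℝ) : Prop :=
  ∀ l ≤ N, ∃ d ∈ Cone (List Bool), ∀ x y : List Bool, x.length = l → y.length = l →
    (∀ k, Near k x y → d x y ≤ D * k) ∧ ∃ k : ℕ, Near k x y ∧ k ≤ d x y

theorem good_one : Good 1 1 := by
  intro l hl
  refine ⟨_, cut_mem zero_le_one fun x => x.headD false, fun x y hx hy => ?_⟩
  by_cases e : x = y
  · subst e
    exact ⟨fun k _ => by simp, 0, Near.refl x, by simp⟩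
  have n1 : Near 1 x y := ⟨[], nil_sublist _, nil_sublist _, by simp; omega⟩
  have : ¬ x.headD false = y.headD false := by
    match x, y with
    | [], [] => simp at e
    | [a], [b] => simpa using e
    | [], _ :: _ => simp at hx hy; omega
    | _ :: _, [] => simp at hx hy; omega
    | _ :: _ :: _, _ => simp at hx; omega
    | _, _ :: _ :: _ => simp at hy; omega
  refine ⟨fun k hk => ?_, 1, n1, by simp only [this, if_false]; simp⟩
  have : k ≠ 0 := by
    rintro rfl
    obtain ⟨s, h1, h2, h3⟩ := hk
    exact e ((h1.eq_of_length_le h3).symm.trans (h2.eq_of_length_le (by omega)))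
  simp only [*, if_false, one_mul]
  exact_mod_cast Nat.pos_of_ne_zero this

theorem scale {N b j : ℕ} {D : ℝ} (hD : 0 ≤ D) (h : Good N D) (hb : b ≤ N) :
    ∃ ρ ∈ Cone (List Bool), ∀ x y : List Bool, x.length = b → y.length = b →
      (Near 1 x y → ρ x y ≤ 2 * D) ∧ ((∀ i, i + 1 < b → x[i + 1]? = y[i]?) → ρ x y ≤ 2) ∧
      ∀ k : ℕ, (∀ k', Near k' x y → k ≤ k') → 2 ^ j * (j + 2) ≤ k + 1 → (2 : ℝ) ^ j ≤ 2 * ρ x y := by
  have s1 : 1 ≤ 2 ^ j := Nat.one_le_two_pow
  by_cases hs : 2 ^ j ≤ b
  · obtain ⟨d, hd, h1⟩ := h (b + 1 - 2 ^ j) (by omega)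
    have s0 : (0 : ℝ) < 2 ^ j := by positivity
    obtain ⟨ρ, hρ, a1, a2, a3⟩ := hash_step (Cone.map hd id (inv_nonneg.2 s0.le)) (2 ^ j)
      fun x a => win x a (b + 1 - 2 ^ j)
    refine ⟨ρ, hρ, fun x y hx hy => ⟨fun n => (a1 x y).trans ?_, fun e => a2 x y fun a ha => ?_,
      fun k hk hj => ?_⟩⟩
    · have := Finset.sum_le_sum fun a (ha : a ∈ Finset.range (2 ^ j)) =>
        mul_le_mul_of_nonneg_left ((h1 (win x a (b + 1 - 2 ^ j)) (win y a (b + 1 - 2 ^ j))
          (by have := Finset.mem_range.1 ha; rw [length_win]; omega)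
          (by have := Finset.mem_range.1 ha; rw [length_win]; omega)).1 1
          (near_win n (hx.trans hy.symm) _ _)) (inv_nonneg.2 s0.le)
      rw [Finset.sum_const, Finset.card_range, nsmul_eq_mul, ← mul_assoc, Nat.cast_pow,
        Nat.cast_ofNat, mul_inv_cancel₀ s0.ne'] at this
      simp only [id]
      push_cast at this
      linarith
    · refine List.ext_getElem? fun i => ?_
      rw [win_get, win_get]
      split_ifs
      · rw [← e (a + i) (by omega)]; congr 1; omega
      · rfl
    · have := a3 x y (j + 1) fun a ha a' ha' => by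
        have l1 : (win x a (b + 1 - 2 ^ j)).length = b + 1 - 2 ^ j := by rw [length_win]; omega
        obtain ⟨k', ⟨s, c1, c2, c3⟩, c4⟩ := (h1 _ (win y a' (b + 1 - 2 ^ j)) l1
          (by rw [length_win]; omega)).2
        have c5 := hk (k' + (2 ^ j - 1))
          ⟨s, c1.trans (win_sublist _ _ _), c2.trans (win_sublist _ _ _), by omega⟩
        have c6 : 2 ^ j * (j + 1) ≤ k' := by rw [mul_add] at hj ⊢; omega
        have c7 : (2 : ℝ) ^ j * (j + 1) ≤ k' := by exact_mod_cast c6
        simp only [id]
        rw [le_inv_mul_iff₀ s0]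
        linarith
      have e : (2 : ℝ) ^ j * Real.exp (-(j + 1)) ≤ 1 / 2 := by
        have e1 : (2 : ℝ) ^ (j + 1) ≤ Real.exp (j + 1) := by
          rw [← Nat.cast_succ, ← mul_one ((j + 1 : ℕ) : ℝ), Real.exp_nat_mul]
          exact pow_le_pow_left₀ (by norm_num) (by linarith [Real.add_one_le_exp 1]) _
        rw [Real.exp_neg, mul_inv_le_iff₀ (Real.exp_pos _)]
        rw [pow_succ] at e1
        linarith
      push_cast at this
      nlinarith
  · refine ⟨0, (Cone _).zero_mem, fun x y hx hy => ⟨fun _ => by simpa using hD, fun _ => by simp,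
      fun k hk hj => ?_⟩⟩
    have := hk b ⟨[], nil_sublist _, nil_sublist _, by simp [hx]⟩
    rw [mul_add] at hj
    omega

theorem blocks {N b J : ℕ} {D : ℝ} (hD : 0 ≤ D) (h : Good N D) (hb : b ≤ N) (hJ : N < 2 ^ J) :
    ∃ ρ ∈ Cone (List Bool), ∀ x y : List Bool, x.length = b → y.length = b →
      (Near 1 x y → ρ x y ≤ J * (2 * D)) ∧
      ((∀ i, i + 1 < b → x[i + 1]? = y[i]?) → ρ x y ≤ J * 2) ∧
      ∃ k : ℕ, Near k x y ∧ k ≤ 4 * (J + 2) * ρ x y := by
  classical
  choose ρ hρ h1 using fun j => scale (j := j) hD h hb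
  refine ⟨_, Cone.sum (Finset.range J) fun j _ => hρ j, fun x y hx hy => ⟨fun n => ?_, fun e => ?_,
    ?_⟩⟩
  · simpa using Finset.sum_le_card_nsmul (Finset.range J) _ _ fun j _ => (h1 j x y hx hy).1 n
  · simpa using Finset.sum_le_card_nsmul (Finset.range J) _ _ fun j _ => (h1 j x y hx hy).2.1 e
  have nb : Near b x y := ⟨[], nil_sublist _, nil_sublist _, by simp [hx]⟩
  have ex : ∃ k, Near k x y := ⟨b, nb⟩
  refine ⟨Nat.find ex, Nat.find_spec ex, ?_⟩
  have kb : Nat.find ex ≤ b := Nat.find_min' ex nb
  have mn : ∀ k', Near k' x y → Nat.find ex ≤ k' := fun k' => Nat.find_min' ex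
  generalize Nat.find ex = k at kb mn
  have nn : 0 ≤ ∑ j ∈ Finset.range J, ρ j x y :=
    Finset.sum_nonneg fun j _ => Cone.nonneg (hρ j) x y
  rcases Nat.eq_zero_or_pos k with rfl | k0
  · simp only [Nat.cast_zero]; positivity
  have ex2 : ∃ j, k + 1 < 2 ^ (j + 1) * (j + 1 + 2) :=
    ⟨k, (Nat.lt_two_pow_self).trans_le (Nat.le_mul_of_pos_right _ (by omega))⟩
  obtain ⟨j, j1, j2⟩ : ∃ j, k + 1 < 2 ^ (j + 1) * (j + 1 + 2) ∧ 2 ^ j * (j + 2) ≤ k + 1 := by
    refine ⟨Nat.find ex2, Nat.find_spec ex2, ?_⟩
    rcases Nat.eq_zero_or_pos (Nat.find ex2) with e | e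
    · rw [e]; omega
    · have := Nat.find_min ex2 (m := Nat.find ex2 - 1) (by omega)
      rw [Nat.sub_add_cancel e] at this
      omega
  have j3 : j < J := by
    refine (Nat.pow_lt_pow_iff_right (a := 2) (by norm_num)).1 ?_
    rw [mul_add] at j2
    have := Nat.one_le_two_pow (n := j)
    omega
  have a1 := (h1 j x y hx hy).2.2 k mn j2
  have a2 : ρ j x y ≤ ∑ j ∈ Finset.range J, ρ j x y :=
    Finset.single_le_sum (f := fun j => ρ j x y) (fun j _ => Cone.nonneg (hρ j) x y)
      (Finset.mem_range.2 j3)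
  have a3 : k ≤ 2 ^ j * (2 * (J + 2)) := by
    have := Nat.mul_le_mul_left (2 ^ (j + 1)) (show j + 1 + 2 ≤ J + 2 by omega)
    rw [← mul_assoc, ← pow_succ]
    omega
  have a4 : (k : ℝ) ≤ 2 ^ j * (2 * (J + 2)) := by exact_mod_cast a3
  have a5 := mul_le_mul_of_nonneg_right (a1.trans (mul_le_mul_of_nonneg_left a2 two_pos.le))
    (by positivity : (0 : ℝ) ≤ 2 * (J + 2))
  linarith

theorem flatMap_win (x : List α) (N m : ℕ) :
    (range m).flatMap (fun i => win x (i * N) N) = x.take (m * N) := by
  induction m with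
  | zero => simp
  | succ m ih => rw [range_succ, flatMap_append, ih, Nat.succ_mul, take_add]; simp [win]

theorem good_step {N m J : ℕ} {D : ℝ} (hD : 0 ≤ D) (h : Good N D) (hJ : N < 2 ^ J) :
    Good (m * N) (8 * J * (J + 2) * (m + 2 * D)) := by
  intro l hl
  choose ρ hρ h1 using fun i : ℕ => blocks (b := min N (l - i * N)) hD h (min_le_left _ _) hJ
  have c0 : (0 : ℝ) ≤ 4 * (J + 2) := by positivity
  have hd := Cone.map (Cone.sum (Finset.range m) fun i _ =>
    Cone.map (hρ i) (fun x => win x (i * N) N) zero_le_one) id c0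
  refine ⟨_, hd, fun x y hx hy => ⟨fun k => chain hd (by positivity) (fun x y hx hy e => ?_)
    k x y hx hy, ?_⟩⟩
  · obtain ⟨n, a, b, e1, ab, e2⟩ := e
    have key : ∀ i, 1 * ρ i (win x (i * N) N) (win y (i * N) N) ≤
        J * 2 + ((if i = a / N then J * (2 * D) else 0) + if i = b / N then J * (2 * D) else 0) := by
      intro i
      obtain ⟨k1, k2, -⟩ := h1 i (win x (i * N) N) (win y (i * N) N) (by rw [length_win, hx])
        (by rw [length_win, hy])
      have k3 := k1 (near_win n (hx.trans hy.symm) _ _)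
      have p1 : (0 : ℝ) ≤ J * (2 * D) := by positivity
      have p2 : (0 : ℝ) ≤ J * 2 := by positivity
      rw [one_mul]
      split_ifs with c1 c2 c2
      · linarith
      · linarith
      · linarith
      have out : ∀ t, i ≠ t / N → t < i * N ∨ i * N + N ≤ t := fun t ht => by
        by_contra hc
        exact ht (Nat.div_eq_of_lt_le (by omega) (by rw [Nat.succ_mul]; omega)).symm
      by_cases c : a < i * N ∧ i * N + N ≤ b
      · have := k2 fun j hj => by
          rw [win_get, win_get, if_pos (by omega), if_pos (by omega), ← add_assoc]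
          exact e2 _ (by omega) (by omega)
        linarith
      · have : win x (i * N) N = win y (i * N) N := List.ext_getElem? fun j => by
          rw [win_get, win_get]
          split_ifs
          · have := out a c1
            have := out b c2
            exact e1 _ (by omega)
          · rfl
        rw [this, Cone.self (hρ i)]
        linarith
    have := Finset.sum_le_sum fun i (_ : i ∈ Finset.range m) => key i
    simp only [Finset.sum_add_distrib, Finset.sum_ite_eq', Finset.sum_const, Finset.card_range,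
      nsmul_eq_mul] at this
    have p1 : (0 : ℝ) ≤ J * (2 * D) := by positivity
    have : ∑ i ∈ Finset.range m, 1 * ρ i (win x (i * N) N) (win y (i * N) N) ≤
        m * (J * 2) + (J * (2 * D) + J * (2 * D)) := by
      refine this.trans ?_
      split_ifs <;> linarith
    refine (mul_le_mul_of_nonneg_left this c0).trans (le_of_eq ?_)
    ring
  · choose k k1 k2 using fun i => (h1 i (win x (i * N) N) (win y (i * N) N)
      (by rw [length_win, hx]) (by rw [length_win, hy])).2.2
    have := Near.flatMap_range m _ _ k k1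
    rw [flatMap_win, flatMap_win, take_of_length_le (by omega), take_of_length_le (by omega)] at this
    refine ⟨_, this, ?_⟩
    simp only [id, one_mul, Finset.mul_sum]
    push_cast
    exact Finset.sum_le_sum fun i _ => k2 i

theorem good_pow {m J : ℕ} (hm : 0 < m) (K : ℕ) (hJ : ∀ k < K, m ^ k < 2 ^ J) :
    ∃ D : ℝ, 0 ≤ D ∧ D + m ≤ (16 * J * (J + 2) + 1) ^ K * (1 + m) ∧ Good (m ^ K) D := by
  induction K with
  | zero => exact ⟨1, zero_le_one, by simp, good_one⟩
  | succ K ih =>
    obtain ⟨D, h1, h2, h3⟩ := ih fun k hk => hJ k (by omega)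
    refine ⟨_, by positivity, ?_, pow_succ' m K ▸ good_step h1 h3 (hJ K (by omega))⟩
    have := mul_le_mul_of_nonneg_left h2 (by positivity : (0 : ℝ) ≤ 16 * J * (J + 2) + 1)
    have p : (0 : ℝ) ≤ 8 * J * (J + 2) * m := by positivity
    rw [pow_succ', mul_assoc (16 * (J : ℝ) * (J + 2) + 1)]
    nlinarith

end Vale.Agent.P238.Up
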